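import Vale.Agent.P262.H395.Fib
import Vale.Agent.P262.H493.Flag

/-!
# P262, block LAB, part 1: fibres of a label as a Euclidean space of their own

For a label space `W ≤ E` the fibre over the label `P_W x` is `P_W x + Wᗮ`.  `sl W x z` is the
point `P_W x + z`, `z : Wᗮ`.  Averages over fibres are averages over `stdGaussian Wᗮ`.
-/

set_option linter.all false

open MeasureTheory ProbabilityTheory Set Filter Topology
open scoped ENNReal RealInnerProductSpace

namespace Vale.Agent.P262.H852

open Vale.Agent.P262.H395

variable {E : Type*} [NormedAddCommGroup E] [InnerProductSpace ℝ E] [FiniteDimensional ℝ E]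
  [MeasurableSpace E] [BorelSpace E]

/-- the law of the orthogonal projection of a standard Gaussian vector on a subspace -/
lemma map_proj_stdGaussian (U : Submodule ℝ E) :
    (stdGaussian E).map U.orthogonalProjection = stdGaussian U := by
  have hm : Measurable (U.orthogonalProjection : E → U) := U.orthogonalProjection.continuous.measurable
  haveI : IsProbabilityMeasure ((stdGaussian E).map U.orthogonalProjection) :=
    Measure.isProbabilityMeasure_map hm.aemeasurable
  apply Measure.ext_of_charFun
  funext t
  rw [charFun_apply, integral_map hm.aemeasurable (by fun_prop), charFun_stdGaussian]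
  have e : ∀ y : E, Complex.exp (⟪U.orthogonalProjection y, t⟫ * Complex.I)
      = Complex.exp (⟪y, (t : E)⟫ * Complex.I) := by
    intro y
    congr 3
    rw [Submodule.coe_inner, ← Submodule.starProjection_apply,
      Submodule.inner_starProjection_left_eq_right, Submodule.starProjection_eq_self_iff.mpr t.2]
  simp_rw [e]
  rw [← charFun_apply, charFun_stdGaussian]
  rfl

/-- the point of the fibre over `P_W x` with fibre coordinate `z` -/
noncomputable def sl (W : Submodule ℝ E) (x : E) (z : Wᗮ) : E := W.starProjection x + z

lemma continuous_sl (W : Submodule ℝ E) : Continuous fun p : E × Wᗮ => sl W p.1 p.2 := by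
  unfold sl
  fun_prop

lemma measurable_sl (W : Submodule ℝ E) : Measurable fun p : E × Wᗮ => sl W p.1 p.2 :=
  (continuous_sl W).measurable

lemma continuous_sl_right (W : Submodule ℝ E) (x : E) : Continuous (sl W x) := by
  unfold sl
  fun_prop

lemma measurable_sl_right (W : Submodule ℝ E) (x : E) : Measurable (sl W x) :=
  (continuous_sl_right W x).measurable

lemma mix_eq_sl (W : Submodule ℝ E) (x z : E) :
    mix W x z = sl W x (Wᗮ.orthogonalProjection z) := by
  unfold mix sl
  rw [← Submodule.starProjection_apply, Submodule.starProjection_orthogonal]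
  simp

lemma starProjection_sl (W : Submodule ℝ E) (x : E) (z : Wᗮ) :
    W.starProjection (sl W x z) = W.starProjection x := by
  unfold sl
  rw [map_add, proj_proj, proj_eq_zero z.2, add_zero]

lemma sl_add_smul (W : Submodule ℝ E) (x : E) (z v : Wᗮ) (t : ℝ) :
    sl W x (z + t • v) = sl W x z + t • (v : E) := by
  unfold sl
  push_cast
  abel

lemma sl_add (W : Submodule ℝ E) (x : E) (z v : Wᗮ) :
    sl W x (z + v) = sl W x z + (v : E) := by
  unfold sl
  push_cast
  abel

/-- every point of the fibre is in the image -/
lemma sl_surj (W : Submodule ℝ E) {x y : E} (h : W.starProjection y = W.starProjection x) :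
    ∃ z : Wᗮ, sl W x z = y := by
  refine ⟨⟨y - W.starProjection y, Submodule.sub_starProjection_mem_orthogonal y⟩, ?_⟩
  unfold sl
  simp [h]

/-- **fibre averages are averages over the type `Wᗮ`** -/
theorem fib_eq (W : Submodule ℝ E) {f : E → ℝ≥0∞} (hf : Measurable f) (x : E) :
    fib W f x = ∫⁻ z, f (sl W x z) ∂stdGaussian Wᗮ := by
  unfold fib
  simp_rw [mix_eq_sl]
  rw [← map_proj_stdGaussian Wᗮ, lintegral_map (f := fun z => f (sl W x z))
    (hf.comp (measurable_sl_right W x)) (Wᗮ.orthogonalProjection.continuous.measurable)]

/-- real-valued form -/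
theorem fib_ofReal (W : Submodule ℝ E) {f : E → ℝ} (hf : Measurable f) (hf0 : ∀ x, 0 ≤ f x) (x : E)
    (hi : Integrable (fun z => f (sl W x z)) (stdGaussian Wᗮ)) :
    fib W (fun y => ENNReal.ofReal (f y)) x
      = ENNReal.ofReal (∫ z, f (sl W x z) ∂stdGaussian Wᗮ) := by
  rw [fib_eq W (hf.ennreal_ofReal), ofReal_integral_eq_lintegral_ofReal hi
    (Eventually.of_forall fun z => hf0 _)]

lemma integral_slice_eq (W : Submodule ℝ E) {f : E → ℝ} (hf : Measurable f) (hf0 : ∀ x, 0 ≤ f x)
    (x : E) (hi : Integrable (fun z => f (sl W x z)) (stdGaussian Wᗮ)) :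
    ∫ z, f (sl W x z) ∂stdGaussian Wᗮ = (fib W (fun y => ENNReal.ofReal (f y)) x).toReal := by
  rw [fib_ofReal W hf hf0 x hi, ENNReal.toReal_ofReal (integral_nonneg fun z => hf0 _)]

/-! ### slices of sets -/

/-- the slice of a set over the label `P_W x` -/
def slice (W : Submodule ℝ E) (x : E) (K : Set E) : Set Wᗮ := {z | sl W x z ∈ K}

@[simp] lemma mem_slice {W : Submodule ℝ E} {x : E} {K : Set E} {z : Wᗮ} :
    z ∈ slice W x K ↔ sl W x z ∈ K := Iff.rfl

lemma slice_compl (W : Submodule ℝ E) (x : E) (K : Set E) : slice W x Kᶜ = (slice W x K)ᶜ := rfl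

lemma slice_inter (W : Submodule ℝ E) (x : E) (K L : Set E) :
    slice W x (K ∩ L) = slice W x K ∩ slice W x L := rfl

lemma slice_union (W : Submodule ℝ E) (x : E) (K L : Set E) :
    slice W x (K ∪ L) = slice W x K ∪ slice W x L := rfl

lemma slice_diff (W : Submodule ℝ E) (x : E) (K L : Set E) :
    slice W x (K \ L) = slice W x K \ slice W x L := rfl

lemma slice_mono (W : Submodule ℝ E) (x : E) {K L : Set E} (h : K ⊆ L) :
    slice W x K ⊆ slice W x L := fun _ hz => h hz

lemma measurableSet_slice (W : Submodule ℝ E) (x : E) {K : Set E} (hK : MeasurableSet K) :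
    MeasurableSet (slice W x K) := measurable_sl_right W x hK

lemma isClosed_slice (W : Submodule ℝ E) (x : E) {K : Set E} (hK : IsClosed K) :
    IsClosed (slice W x K) := hK.preimage (continuous_sl_right W x)

lemma convex_slice (W : Submodule ℝ E) (x : E) {K : Set E} (hK : Convex ℝ K) :
    Convex ℝ (slice W x K) := by
  intro z hz z' hz' a b ha hb hab
  have h1 : sl W x (a • z + b • z') = a • sl W x z + b • sl W x z' := by
    unfold sl
    push_cast
    rw [smul_add, smul_add]
    have h2 : W.starProjection x = a • W.starProjection x + b • W.starProjection x := by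
      rw [← add_smul, hab, one_smul]
    nth_rewrite 1 [h2]
    abel
  rw [mem_slice, h1]
  exact hK hz hz' ha hb hab

lemma indicator_slice (W : Submodule ℝ E) (x : E) (K : Set E) {α : Type*} [Zero α] (c : α) (z : Wᗮ) :
    (slice W x K).indicator (fun _ => c) z = K.indicator (fun _ => c) (sl W x z) := by
  by_cases h : sl W x z ∈ K
  · rw [indicator_of_mem h, indicator_of_mem (show z ∈ slice W x K from h)]
  · rw [indicator_of_notMem h, indicator_of_notMem (show z ∉ slice W x K from h)]

/-- the measure of a slice -/
lemma measure_slice (W : Submodule ℝ E) (x : E) {K : Set E} (hK : MeasurableSet K) :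
    stdGaussian Wᗮ (slice W x K) = fib W (K.indicator 1) x := by
  rw [fib_eq W (measurable_one.indicator hK), ← lintegral_indicator_one (measurableSet_slice W x hK)]
  rfl

lemma real_slice (W : Submodule ℝ E) (x : E) {K : Set E} (hK : MeasurableSet K) :
    (stdGaussian Wᗮ).real (slice W x K) = (fib W (K.indicator 1) x).toReal := by
  rw [Measure.real, measure_slice W x hK]

/-- the star operation commutes with slicing for steps in the fibre -/
lemma slice_star (W : Submodule ℝ E) (x : E) (K : Set E) (v : Wᗮ) :
    slice W x (H493.star K (v : E)) = H493.star (slice W x K) v := by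
  ext z
  simp only [mem_slice, H493.star, Set.mem_setOf_eq, sl_add_smul]

/-! ### labels below the node -/

/-- the part of a label space `W'` which lies in the fibre of `W`, as a subspace of `Wᗮ` -/
noncomputable def sub (W W' : Submodule ℝ E) : Submodule ℝ Wᗮ := W'.comap Wᗮ.subtype

lemma mem_sub {W W' : Submodule ℝ E} {z : Wᗮ} : z ∈ sub W W' ↔ (z : E) ∈ W' := Iff.rfl

lemma sub_mono {W W' W'' : Submodule ℝ E} (h : W' ≤ W'') : sub W W' ≤ sub W W'' :=
  fun _ hz => h hz

/-- projections on label spaces above `W` -/
lemma coe_starProjection_sub {W W' : Submodule ℝ E} (h : W ≤ W') (z : Wᗮ) :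
    (((sub W W').starProjection z : Wᗮ) : E) = W'.starProjection (z : E) := by
  have h1 : W'.starProjection (z : E) ∈ Wᗮ := by
    intro w hw
    rw [← Submodule.inner_starProjection_left_eq_right,
      Submodule.starProjection_eq_self_iff.mpr (h hw)]
    exact z.2 w hw
  have h2 : (sub W W').starProjection z = ⟨W'.starProjection (z : E), h1⟩ := by
    refine Submodule.eq_starProjection_of_mem_of_inner_eq_zero (K := sub W W')
      (u := z) (v := ⟨W'.starProjection (z : E), h1⟩) (mem_sub.mpr
      (Submodule.starProjection_apply_mem W' _)) ?_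
    intro w hw
    rw [Submodule.coe_inner]
    push_cast
    exact (Submodule.mem_orthogonal' W' _).mp
      (Submodule.sub_starProjection_mem_orthogonal (z : E)) w hw
  rw [h2]

/-- **towers**: averages over the fibres of a label below the node, read in the fibre of the
node -/
theorem fib_sub {W W' : Submodule ℝ E} (h : W ≤ W') {f : E → ℝ≥0∞} (hf : Measurable f) (x : E)
    (z : Wᗮ) : fib (sub W W') (fun y => f (sl W x y)) z = fib W' f (sl W x z) := by
  unfold fib
  rw [← map_proj_stdGaussian Wᗮ, lintegral_map
    (f := fun z' => f (sl W x (mix (sub W W') z z')))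
    ((hf.comp (measurable_sl_right W x)).comp (measurable_mix_right _ z))
    (Wᗮ.orthogonalProjection.continuous.measurable)]
  apply lintegral_congr
  intro y
  congr 1
  have hW' : ∀ y, W'.starProjection (W.starProjection y) = W.starProjection y := fun y =>
    Submodule.starProjection_eq_self_iff.mpr (h (Submodule.starProjection_apply_mem W y))
  have e1 : ((Wᗮ.orthogonalProjection y : Wᗮ) : E) = y - W.starProjection y := by
    rw [← Submodule.starProjection_apply, Submodule.starProjection_orthogonal]; simp
  unfold mix sl
  push_cast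
  rw [coe_starProjection_sub h, coe_starProjection_sub h, e1]
  simp only [map_add, map_sub, hW']
  abel

end Vale.Agent.P262.H852
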