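import Mathlib

/-!
# P262, milestone 1, block LBL: the labelwise block lemma (abstract part)

One label `u`, elementary states `t = a, …, b` of one block.  `q t` is the alive mass, `D t = 1 - q t`,
`F t` the mass of the visible field, `h t` the hidden mass, `F t + h t = D t`.  `A` is the cap of the
label.  `G t` bounds the change of the field which is paid by gains and inner moves, `Δ t` is the mass
which crosses during an outer rotation and `Q t` its unit price: either `A q ≤ Q` or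
`A Δ ≤ Q (D + Δ)`.
-/

set_option linter.all false

open Finset

namespace Vale.Agent.P262.H852

/-- **Bootstrap**: if the increment of `F` is at most `e s` as soon as one of its end points is within
`B` of `F τ`, and the `e s` sum up to at most `B`, then `F` stays within `B` of `F τ`. -/
theorem bootstrap {F e : ℕ → ℝ} {a b τ : ℕ} {B : ℝ} (ha : a ≤ τ) (hb : τ ≤ b)
    (he : ∀ s, a ≤ s → s < b → 0 ≤ e s)
    (hstep : ∀ s, a ≤ s → s < b → (|F s - F τ| ≤ B ∨ |F (s + 1) - F τ| ≤ B) →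
      |F (s + 1) - F s| ≤ e s)
    (hB : ∑ s ∈ Ico a b, e s ≤ B) : ∀ t, a ≤ t → t ≤ b → |F t - F τ| ≤ B := by
  have hsub : ∀ i j, a ≤ i → j ≤ b → ∑ s ∈ Ico i j, e s ≤ B := by
    intro i j hi hj
    refine le_trans ?_ hB
    refine Finset.sum_le_sum_of_subset_of_nonneg (Ico_subset_Ico hi hj) ?_
    intro s hs _
    rw [Finset.mem_Ico] at hs
    exact he s hs.1 hs.2
  have hB0 : 0 ≤ B := by
    have := hsub b b (ha.trans hb) le_rfl
    simpa using this
  -- forward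
  have fwd : ∀ t, τ ≤ t → t ≤ b → |F t - F τ| ≤ ∑ s ∈ Ico τ t, e s := by
    intro t ht
    induction t, ht using Nat.le_induction with
    | base => intro _; simp
    | succ t ht ih =>
      intro htb
      have h1 := ih (by omega)
      have h2 : |F t - F τ| ≤ B := h1.trans (hsub τ t ha (by omega))
      have h3 := hstep t (by omega) (by omega) (Or.inl h2)
      rw [Finset.sum_Ico_succ_top ht]
      have h4 : |F (t + 1) - F τ| ≤ |F (t + 1) - F t| + |F t - F τ| := abs_sub_le _ _ _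
      linarith
  -- backward
  have bwd : ∀ k, k ≤ τ - a → |F (τ - k) - F τ| ≤ ∑ s ∈ Ico (τ - k) τ, e s := by
    intro k
    induction k with
    | zero => intro _; simp
    | succ k ih =>
      intro hk
      have h1 := ih (by omega)
      have h2 : |F (τ - k) - F τ| ≤ B := h1.trans (hsub _ _ (by omega) hb)
      have e1 : τ - (k + 1) + 1 = τ - k := by omega
      have h3 := hstep (τ - (k + 1)) (by omega) (by omega) (Or.inr (by rw [e1]; exact h2))
      rw [e1] at h3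
      rw [Finset.sum_eq_sum_Ico_succ_bot (by omega : τ - (k + 1) < τ), e1]
      have h4 : |F (τ - (k + 1)) - F τ| ≤ |F (τ - (k + 1)) - F (τ - k)| + |F (τ - k) - F τ| :=
        abs_sub_le _ _ _
      rw [abs_sub_comm (F (τ - k))] at h3
      linarith
  intro t hta htb
  rcases le_total τ t with h | h
  · exact (fwd t h htb).trans (hsub _ _ ha htb)
  · have := bwd (τ - t) (by omega)
    have e1 : τ - (τ - t) = t := by omega
    rw [e1] at this
    exact this.trans (hsub _ _ hta hb)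

/-- The data of one label during one block (elementary states `a..b`). -/
structure Lab (A η : ℝ) (q F h G Δ Q : ℕ → ℝ) (a b : ℕ) : Prop where
  A0 : 0 ≤ A
  A1 : A ≤ 1
  η0 : 0 ≤ η
  η1 : η ≤ 1 / 100
  q0 : ∀ t, a ≤ t → t ≤ b → 0 ≤ q t
  q1 : ∀ t, a ≤ t → t ≤ b → q t ≤ 1
  h0 : ∀ t, a ≤ t → t ≤ b → 0 ≤ h t
  bal : ∀ t, a ≤ t → t ≤ b → F t + h t = 1 - q t
  hA : ∀ t, a ≤ t → t ≤ b → h t ≤ η * A
  hq : ∀ t, a ≤ t → t ≤ b → h t ≤ η * q t
  G0 : ∀ t, a ≤ t → t < b → 0 ≤ G t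
  Δ0 : ∀ t, a ≤ t → t < b → 0 ≤ Δ t
  Q0 : ∀ t, a ≤ t → t < b → 0 ≤ Q t
  var : ∀ t, a ≤ t → t < b → |F (t + 1) - F t| ≤ G t + Δ t
  price : ∀ t, a ≤ t → t < b →
    A * max (q t) (q (t + 1)) ≤ Q t ∨ A * Δ t ≤ Q t * (min (1 - q t) (1 - q (t + 1)) + Δ t)

variable {A η : ℝ} {q F h G Δ Q : ℕ → ℝ} {a b : ℕ}

namespace Lab

lemma sumQ_ge (H : Lab A η q F h G Δ Q a b) {s : ℕ} (h1 : a ≤ s) (h2 : s < b) :
    Q s ≤ ∑ t ∈ Ico a b, Q t := by
  refine Finset.single_le_sum (f := Q) (fun t ht => ?_) (Finset.mem_Ico.mpr ⟨h1, h2⟩)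
  rw [Finset.mem_Ico] at ht
  exact H.Q0 t ht.1 ht.2

lemma sumG_nonneg (H : Lab A η q F h G Δ Q a b) : 0 ≤ ∑ t ∈ Ico a b, G t := by
  refine Finset.sum_nonneg fun t ht => ?_
  rw [Finset.mem_Ico] at ht
  exact H.G0 t ht.1 ht.2

lemma sumQ_nonneg (H : Lab A η q F h G Δ Q a b) : 0 ≤ ∑ t ∈ Ico a b, Q t := by
  refine Finset.sum_nonneg fun t ht => ?_
  rw [Finset.mem_Ico] at ht
  exact H.Q0 t ht.1 ht.2

/-- the second alternative of the price, solved for `Δ` -/
lemma delta_le (H : Lab A η q F h G Δ Q a b) {s : ℕ} (h1 : a ≤ s) (h2 : s < b)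
    (hQ : Q s ≤ A / 2) (hA : 0 < A)
    (hp : A * Δ s ≤ Q s * (min (1 - q s) (1 - q (s + 1)) + Δ s)) :
    Δ s ≤ 2 * (Q s / A) * min (1 - q s) (1 - q (s + 1)) := by
  have hΔ := H.Δ0 s h1 h2
  have h3 : Q s * Δ s ≤ A / 2 * Δ s := mul_le_mul_of_nonneg_right hQ hΔ
  have h4 : A * Δ s ≤ 2 * (Q s * min (1 - q s) (1 - q (s + 1))) := by nlinarith
  have h5 : 2 * (Q s / A) * min (1 - q s) (1 - q (s + 1))
      = 2 * (Q s * min (1 - q s) (1 - q (s + 1))) / A := by ring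
  rw [h5, le_div_iff₀ hA]
  linarith

/-- first stretch: the alive mass is almost constant -/
lemma near (H : Lab A η q F h G Δ Q a b) (hA : 0 < A) {τ : ℕ} (hτa : a ≤ τ) (hτb : τ ≤ b)
    (hq : 0 < q τ) {κ : ℝ} (hκ0 : 0 ≤ κ) (hκ : κ ≤ 1 / 10)
    (hS : ∑ t ∈ Ico a b, G t + ∑ t ∈ Ico a b, Q t ≤ κ * (A * q τ)) :
    (∀ t, a ≤ t → t ≤ b → |F t - F τ| ≤ 3 * κ * q τ) ∧
    (∀ t, a ≤ t → t ≤ b → q t ≤ (1 + 3 * κ + 1 / 100) * q τ) ∧
    (∀ t, a ≤ t → t ≤ b → (1 - 3 * κ) * q τ ≤ (1 + 1 / 100) * q t) ∧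
    ∀ s, a ≤ s → s < b → Δ s ≤ 2 * (Q s / A) * min (1 - q s) (1 - q (s + 1)) := by
  have hA1 := H.A1
  have hη0 := H.η0
  have hη1 := H.η1
  have hqτ1 := H.q1 τ hτa hτb
  have hG := H.sumG_nonneg
  have hQs := H.sumQ_nonneg
  have hAq : 0 < A * q τ := mul_pos hA hq
  have hAq1 : A * q τ ≤ q τ := by nlinarith
  -- from closeness of F to the size of q
  have lower : ∀ t, a ≤ t → t ≤ b → |F t - F τ| ≤ 3 * κ * q τ →
      (1 - 3 * κ) * q τ ≤ (1 + 1 / 100) * q t := by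
    intro t h1 h2 h3
    have e1 := H.bal t h1 h2
    have e2 := H.bal τ hτa hτb
    have e3 := H.hq t h1 h2
    have e4 := H.h0 τ hτa hτb
    have e5 := H.q0 t h1 h2
    have e6 := (abs_le.mp h3).2
    have e7 : η * q t ≤ 1 / 100 * q t := mul_le_mul_of_nonneg_right hη1 e5
    nlinarith
  have upper : ∀ t, a ≤ t → t ≤ b → |F t - F τ| ≤ 3 * κ * q τ →
      q t ≤ (1 + 3 * κ + 1 / 100) * q τ := by
    intro t h1 h2 h3
    have e1 := H.bal t h1 h2
    have e2 := H.bal τ hτa hτb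
    have e3 := H.hq τ hτa hτb
    have e4 := H.h0 t h1 h2
    have e6 := (abs_le.mp h3).1
    have e7 : η * q τ ≤ 1 / 100 * q τ := mul_le_mul_of_nonneg_right hη1 hq.le
    nlinarith
  have hQbd : ∀ s, a ≤ s → s < b → Q s ≤ κ * (A * q τ) := by
    intro s h1 h2
    have := H.sumQ_ge h1 h2
    linarith
  have hΔ : ∀ s, a ≤ s → s < b → (|F s - F τ| ≤ 3 * κ * q τ ∨ |F (s + 1) - F τ| ≤ 3 * κ * q τ) →
      Δ s ≤ 2 * (Q s / A) * min (1 - q s) (1 - q (s + 1)) := by
    intro s h1 h2 h3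
    have hQ1 := hQbd s h1 h2
    have hQ2 : Q s ≤ A / 2 := by nlinarith
    have hmax : 1 / 2 * q τ < max (q s) (q (s + 1)) := by
      rcases h3 with h3 | h3
      · have := lower s h1 h2.le h3
        refine lt_of_lt_of_le ?_ (le_max_left _ _)
        nlinarith
      · have := lower (s + 1) (by omega) (by omega) h3
        refine lt_of_lt_of_le ?_ (le_max_right _ _)
        nlinarith
    rcases H.price s h1 h2 with hp | hp
    · exfalso
      have h5 : A * (1 / 2 * q τ) < A * max (q s) (q (s + 1)) := mul_lt_mul_of_pos_left hmax hA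
      nlinarith
    · exact H.delta_le h1 h2 hQ2 hA hp
  have key := bootstrap (F := F) (e := fun s => G s + 2 * (Q s / A)) hτa hτb
    (fun s h1 h2 => by
      have := H.G0 s h1 h2
      have := H.Q0 s h1 h2
      positivity)
    (B := 3 * κ * q τ) (fun s h1 h2 h3 => by
      have h4 := hΔ s h1 h2 h3
      have h5 := H.var s h1 h2
      have h6 := H.Q0 s h1 h2
      have h7 : min (1 - q s) (1 - q (s + 1)) ≤ 1 :=
        (min_le_left _ _).trans (by have := H.q0 s h1 h2.le; linarith)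
      have h8 : 2 * (Q s / A) * min (1 - q s) (1 - q (s + 1)) ≤ 2 * (Q s / A) * 1 :=
        mul_le_mul_of_nonneg_left h7 (by positivity)
      linarith)
    (by
      rw [Finset.sum_add_distrib, ← Finset.mul_sum, ← Finset.sum_div]
      have h1 : (∑ t ∈ Ico a b, Q t) / A ≤ κ * q τ := by
        rw [div_le_iff₀ hA]
        nlinarith
      nlinarith)
  refine ⟨key, fun t h1 h2 => upper t h1 h2 (key t h1 h2),
    fun t h1 h2 => lower t h1 h2 (key t h1 h2), fun s h1 h2 => hΔ s h1 h2 (Or.inl (key s h1 h2.le))⟩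

/-- second stretch: the dead mass never falls below `A/2` -/
lemma above (H : Lab A η q F h G Δ Q a b) (hA : 0 < A) {τ : ℕ} (hτa : a ≤ τ) (hτb : τ ≤ b)
    (hq : 0 < q τ) {κ : ℝ} (hκ0 : 0 ≤ κ) (hκ : κ ≤ 1 / 100)
    (hS : ∑ t ∈ Ico a b, G t + ∑ t ∈ Ico a b, Q t ≤ κ * (A * q τ))
    {σ : ℕ} (hσa : a ≤ σ) (hσb : σ ≤ b) (hσ : A ≤ 1 - q σ) :
    (99 / 100 * A ≤ F σ) ∧
    (∀ t, a ≤ t → t ≤ b → |F t - F σ| ≤ 7 * κ * F σ) ∧
    ∑ t ∈ Ico a b, (G t + Δ t) ≤ 7 * κ * (q τ * F σ) := by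
  obtain ⟨-, -, -, hΔ⟩ := H.near hA hτa hτb hq hκ0 (by linarith) hS
  have hqτ1 := H.q1 τ hτa hτb
  have hG := H.sumG_nonneg
  have hQs := H.sumQ_nonneg
  have hFσ : 99 / 100 * A ≤ F σ := by
    have e1 := H.bal σ hσa hσb
    have e2 := H.hA σ hσa hσb
    have e3 : η * A ≤ 1 / 100 * A := mul_le_mul_of_nonneg_right H.η1 hA.le
    linarith
  have hF0 : 0 < F σ := by nlinarith
  -- the sum of the bounds
  have hsum : ∑ s ∈ Ico a b, (G s + 2 * (Q s / A) * (2 * F σ)) ≤ 7 * κ * (q τ * F σ) := by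
    rw [Finset.sum_add_distrib, ← Finset.sum_mul, ← Finset.mul_sum, ← Finset.sum_div]
    have h1 : (∑ t ∈ Ico a b, Q t) / A ≤ κ * q τ - (∑ t ∈ Ico a b, G t) / A := by
      rw [le_sub_iff_add_le, ← add_div, div_le_iff₀ hA]
      nlinarith
    have h2 : ∑ t ∈ Ico a b, G t ≤ (∑ t ∈ Ico a b, G t) / A * (100 / 99 * F σ) := by
      rw [div_mul_eq_mul_div, le_div_iff₀ hA]
      have : A ≤ 100 / 99 * F σ := by linarith
      exact mul_le_mul_of_nonneg_left this hG
    have h3 : 0 ≤ (∑ t ∈ Ico a b, G t) / A := div_nonneg hG hA.le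
    have h4 : 0 ≤ (∑ t ∈ Ico a b, Q t) / A := div_nonneg hQs hA.le
    have h5 : 2 * ((∑ t ∈ Ico a b, Q t) / A) * (2 * F σ)
        ≤ 2 * (κ * q τ - (∑ t ∈ Ico a b, G t) / A) * (2 * F σ) :=
      mul_le_mul_of_nonneg_right (by linarith) (by linarith)
    have h6 : 0 ≤ (∑ t ∈ Ico a b, G t) / A * F σ := mul_nonneg h3 hF0.le
    have h7 : 0 ≤ κ * (q τ * F σ) := by positivity
    nlinarith
  have hDs : ∀ t, a ≤ t → t ≤ b → |F t - F σ| ≤ 7 * κ * F σ → 1 - q t ≤ 2 * F σ := by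
    intro t h1 h2 h3
    have e1 := H.bal t h1 h2
    have e2 := H.hA t h1 h2
    have e3 : η * A ≤ 1 / 100 * A := mul_le_mul_of_nonneg_right H.η1 hA.le
    have e4 := (abs_le.mp h3).2
    nlinarith
  have hstep : ∀ s, a ≤ s → s < b → (|F s - F σ| ≤ 7 * κ * F σ ∨ |F (s + 1) - F σ| ≤ 7 * κ * F σ) →
      Δ s ≤ 2 * (Q s / A) * (2 * F σ) := by
    intro s h1 h2 h3
    have h4 := hΔ s h1 h2
    have h5 := H.Q0 s h1 h2
    refine h4.trans (mul_le_mul_of_nonneg_left ?_ (by positivity))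
    rcases h3 with h3 | h3
    · exact (min_le_left _ _).trans (hDs s h1 h2.le h3)
    · exact (min_le_right _ _).trans (hDs (s + 1) (by omega) (by omega) h3)
  have key := bootstrap (F := F) (e := fun s => G s + 2 * (Q s / A) * (2 * F σ)) hσa hσb
    (fun s h1 h2 => by
      have := H.G0 s h1 h2
      have := H.Q0 s h1 h2
      positivity)
    (B := 7 * κ * F σ) (fun s h1 h2 h3 => by
      have h4 := hstep s h1 h2 h3
      have h5 := H.var s h1 h2
      linarith)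
    (hsum.trans (by
      have : q τ * F σ ≤ 1 * F σ := mul_le_mul_of_nonneg_right hqτ1 hF0.le
      nlinarith))
  refine ⟨hFσ, key, ?_⟩
  refine (Finset.sum_le_sum fun s hs => ?_).trans hsum
  rw [Finset.mem_Ico] at hs
  have := hstep s hs.1 hs.2 (Or.inl (key s hs.1 hs.2.le))
  linarith

/-- **Labelwise block lemma, complete block.** -/
theorem complete (H : Lab A η q F h G Δ Q a b) {κ : ℝ} (hκ0 : 0 ≤ κ) (hκ : κ ≤ 1)
    (hab : a ≤ b)
    {σ : ℕ} (hσa : a ≤ σ) (hσb : σ ≤ b) (hσ : A ≤ 1 - q σ)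
    (GC : (∀ t, a ≤ t → t ≤ b → 9 / 10 * A ≤ 1 - q t) →
      (∀ t, a ≤ t → t ≤ b → |q t - q b| ≤ 1 / 10 * q b) → 0 < q b →
      κ * ((1 - q b) * q b) ≤ ∑ t ∈ Ico a b, (G t + Δ t))
    {τ : ℕ} (hτa : a ≤ τ) (hτb : τ ≤ b) :
    κ / 100 * (A * q τ) ≤ ∑ t ∈ Ico a b, G t + ∑ t ∈ Ico a b, Q t := by
  by_contra hlt
  rw [not_le] at hlt
  have hG := H.sumG_nonneg
  have hQs := H.sumQ_nonneg
  have hpos : 0 < κ / 100 * (A * q τ) := lt_of_le_of_lt (by positivity) hlt
  have hA : 0 < A := by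
    rcases H.A0.lt_or_eq with h | h
    · exact h
    · rw [← h] at hpos; simp at hpos
  have hqτ : 0 < q τ := by
    rcases (H.q0 τ hτa hτb).lt_or_eq with h | h
    · exact h
    · rw [← h] at hpos; simp at hpos
  have hκpos : 0 < κ := by
    rcases hκ0.lt_or_eq with h | h
    · exact h
    · rw [← h] at hpos; simp at hpos
  obtain ⟨k1, k2, k3, k4⟩ := H.near hA hτa hτb hqτ (κ := κ / 100) (by positivity) (by linarith)
    hlt.le
  obtain ⟨m1, m2, m3⟩ := H.above hA hτa hτb hqτ (κ := κ / 100) (by positivity) (by linarith)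
    hlt.le hσa hσb hσ
  have hFσ : 0 < F σ := by nlinarith
  have hb1 := k2 b hab le_rfl
  have hb2 := k3 b hab le_rfl
  have hqb : 0 < q b := by nlinarith
  have hFb := m2 b hab le_rfl
  have hFb' := (abs_le.mp hFb).1
  have hbal := H.bal b hab le_rfl
  have hhb := H.h0 b hab le_rfl
  have hGC := GC (fun t h1 h2 => by
      have e1 := (abs_le.mp (m2 t h1 h2)).1
      have e2 := H.bal t h1 h2
      have e3 := H.h0 t h1 h2
      nlinarith)
    (fun t h1 h2 => by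
      have e1 := k2 t h1 h2
      have e2 := k3 t h1 h2
      rw [abs_le]
      constructor <;> nlinarith) hqb
  have hD : 93 / 100 * F σ ≤ 1 - q b := by nlinarith
  have hq2 : 9 / 10 * q τ ≤ q b := by nlinarith
  have h1 : 93 / 100 * F σ * (9 / 10 * q τ) ≤ (1 - q b) * q b :=
    mul_le_mul hD hq2 (by positivity) (le_trans (by positivity) hD)
  have h2 : 0 < q τ * F σ := mul_pos hqτ hFσ
  have h3 : κ * (93 / 100 * F σ * (9 / 10 * q τ)) ≤ κ * ((1 - q b) * q b) :=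
    mul_le_mul_of_nonneg_left h1 hκ0
  have h4 : 0 < κ * (q τ * F σ) := mul_pos hκpos h2
  nlinarith

/-- **Labelwise block lemma, any block**: the alive mass at any time against the alive mass at a
fixed time `o` (e.g. the opening). -/
theorem incomplete (H : Lab A η q F h G Δ Q a b) {o : ℕ} (hoa : a ≤ o) (hob : o ≤ b)
    {τ : ℕ} (hτa : a ≤ τ) (hτb : τ ≤ b) :
    A * q τ ≤ 2 * (A * q o) + 20 * (∑ t ∈ Ico a b, G t + ∑ t ∈ Ico a b, Q t) := by
  by_contra hlt
  rw [not_le] at hlt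
  have hG := H.sumG_nonneg
  have hQs := H.sumQ_nonneg
  have hqo := H.q0 o hoa hob
  have hA0 := H.A0
  have hpos : 0 < A * q τ := lt_of_le_of_lt (by positivity) hlt
  have hA : 0 < A := by
    rcases H.A0.lt_or_eq with h | h
    · exact h
    · rw [← h] at hpos; simp at hpos
  have hqτ : 0 < q τ := by
    rcases (H.q0 τ hτa hτb).lt_or_eq with h | h
    · exact h
    · rw [← h] at hpos; simp at hpos
  have hAqo : 0 ≤ A * q o := by positivity
  obtain ⟨-, -, k3, -⟩ := H.near hA hτa hτb hqτ (κ := 1 / 20) (by norm_num) (by norm_num)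
    (by linarith)
  have h1 := k3 o hoa hob
  have h2 : A * q τ ≤ 2 * (A * q o) := by nlinarith
  linarith

end Lab

end Vale.Agent.P262.H852
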