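import Vale.Agent.P262.H852.PathC
import Vale.Agent.P262.H59.R12
import Vale.Agent.P262.H118.SysBlk

/-!
# P262, milestone 1, block LAB on `S : Sys E`: what a label sees at a state
-/

set_option linter.all false

open MeasureTheory ProbabilityTheory Set
open scoped ENNReal RealInnerProductSpace
open Vale.Agent.P262.H118 (L Iv st en ONB K1 rotE ON tau)
open Vale.Agent.P262.H395 (fib mix Inv Fixes fib_mono fib_tower fib_le_one fib_eq_self fib_add)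
open Vale.Agent.P262.H493 (star)
open Vale.Agent.P262.H654 (Lev fl vis wt kt al hid nk fr InvR Good LevOK Bd ks)
open Vale.Agent.P262.H847 (UI)
open Vale.Agent.P262.H852 (sl slice measurable_sl_right)

namespace Vale.Agent.P262.M1.Sys

variable {E : Type*} [NormedAddCommGroup E] [InnerProductSpace ℝ E] [FiniteDimensional ℝ E]
  [MeasurableSpace E] [BorelSpace E] (S : Sys E)

/-- visible field at the label `x` of level `l`, state `k` -/
noncomputable def fe (l : ℕ) (x : E) (k : ℕ) : (L S.f l)ᗮ → ℝ :=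
  fun z => S.fldL l k (sl (L S.f l) x z)

/-- hidden field -/
noncomputable def fhd (l : ℕ) (x : E) (k : ℕ) : (L S.f l)ᗮ → ℝ :=
  fun z => S.hdn l k ((S.Cg l k).symm (sl (L S.f l) x z))

/-- alive body in level-`l` coordinates -/
def Kl (l k : ℕ) : Set E :=
  (fun z => (S.Cg l k).symm z) ⁻¹' (ks (S.lvs (l + 1) S.d) (S.X S.lf k))

/-- its slice -/
def Ks (l : ℕ) (x : E) (k : ℕ) : Set (L S.f l)ᗮ := slice (L S.f l) x (S.Kl l k)

section

variable {c0 : ℝ}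

lemma fldL_UI (hM : 0 ≤ S.M) (hc0 : (S.M + 1) * S.cp.b0 ≤ c0) (hc : c0 ≤ 1 / 16) (l k : ℕ) :
    UI (S.fldL l k) :=
  H941.UI.comp (H654.fl_UI (S.good_lvs hM hc0 _ _) hc (ind_UI (S.measurableSet_X S.lf k).compl))
    (S.Cg l k).symm.continuous.measurable

lemma hdnL_UI (hM : 0 ≤ S.M) (hc0 : (S.M + 1) * S.cp.b0 ≤ c0) (hc : c0 ≤ 1 / 16) (l k : ℕ) :
    UI (fun z => S.hdn l k ((S.Cg l k).symm z)) :=
  H941.UI.comp (H654.hid_UI (S.good_lvs hM hc0 _ _) hc (ind_UI (S.measurableSet_X S.lf k).compl))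
    (S.Cg l k).symm.continuous.measurable

lemma fe_UI (hM : 0 ≤ S.M) (hc0 : (S.M + 1) * S.cp.b0 ≤ c0) (hc : c0 ≤ 1 / 16) (l : ℕ) (x : E)
    (k : ℕ) : UI (S.fe l x k) := H941.UI.comp (S.fldL_UI hM hc0 hc l k) (measurable_sl_right _ x)

lemma fhd_UI (hM : 0 ≤ S.M) (hc0 : (S.M + 1) * S.cp.b0 ≤ c0) (hc : c0 ≤ 1 / 16) (l : ℕ) (x : E)
    (k : ℕ) : UI (S.fhd l x k) := H941.UI.comp (S.hdnL_UI hM hc0 hc l k) (measurable_sl_right _ x)

lemma convex_Kl (l k : ℕ) : Convex ℝ (S.Kl l k) := by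
  have h1 : Convex ℝ (ks (S.lvs (l + 1) S.d) (S.X S.lf k)) := by
    intro x hx y hy a b ha hb hab
    refine ⟨S.convex_X S.lf k hx.1 hy.1 ha hb hab, fun p hp => ?_⟩
    obtain ⟨j, -, -, rfl⟩ := S.mem_lvs.mp hp
    exact S.cp.Z_convex j (hx.2 _ hp) (hy.2 _ hp) ha hb hab
  intro x hx y hy a b ha hb hab
  have h2 : (S.Cg l k).symm (a • x + b • y) = a • (S.Cg l k).symm x + b • (S.Cg l k).symm y := by
    rw [map_add, map_smul, map_smul]
  have h3 : (S.Cg l k).symm (a • x + b • y) ∈ ks (S.lvs (l + 1) S.d) (S.X S.lf k) := by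
    rw [h2]; exact h1 hx hy ha hb hab
  exact h3

lemma measurableSet_Kl (hM : 0 ≤ S.M) (hc0 : (S.M + 1) * S.cp.b0 ≤ c0) (l k : ℕ) :
    MeasurableSet (S.Kl l k) :=
  (S.Cg l k).symm.continuous.measurable
    (H654.measurableSet_ks (S.good_lvs hM hc0 _ _) (S.measurableSet_X S.lf k))

lemma convex_Ks (l : ℕ) (x : E) (k : ℕ) : Convex ℝ (S.Ks l x k) :=
  H852.convex_slice _ x (S.convex_Kl l k)

lemma measurableSet_Ks (hM : 0 ≤ S.M) (hc0 : (S.M + 1) * S.cp.b0 ≤ c0) (l : ℕ) (x : E) (k : ℕ) :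
    MeasurableSet (S.Ks l x k) := H852.measurableSet_slice _ x (S.measurableSet_Kl hM hc0 l k)

lemma norm_le_norm_sl (W : Submodule ℝ E) (x : E) (z : Wᗮ) : ‖z‖ ≤ ‖sl W x z‖ := by
  have h1 : Wᗮ.starProjection (sl W x z) = z := by
    unfold sl
    rw [map_add, (Submodule.starProjection_eq_self_iff).2 z.2,
      (Submodule.starProjection_apply_eq_zero_iff _).2]
    · rw [zero_add]
    · exact Submodule.le_orthogonal_orthogonal _ (W.starProjection_apply_mem x)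
  calc ‖z‖ = ‖(z : E)‖ := rfl
    _ = ‖Wᗮ.starProjection (sl W x z)‖ := by rw [h1]
    _ ≤ _ := Wᗮ.norm_starProjection_apply_le _

lemma ball_Ks (l : ℕ) (x : E) (k : ℕ) : ∀ z ∈ S.Ks l x k, ‖z‖ ≤ S.R := by
  intro z hz
  have h1 : (S.Cg l k).symm (sl (L S.f l) x z) ∈ S.X S.lf k := hz.1
  have h2 := S.X_subset_ball S.lf k h1
  rw [mem_closedBall_zero_iff, LinearIsometryEquiv.norm_map] at h2
  exact (norm_le_norm_sl _ x z).trans h2

lemma split_Ks (l : ℕ) (x : E) (k : ℕ) (z : (L S.f l)ᗮ) :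
    S.fe l x k z + S.fhd l x k z = (S.Ks l x k)ᶜ.indicator (fun _ => (1:ℝ)) z := by
  have h1 := H654.fl_add_hid_ind (S.lvs (l + 1) S.d) (S.X S.lf k)
    ((S.Cg l k).symm (sl (L S.f l) x z))
  have h2 : (S.Ks l x k)ᶜ.indicator (fun _ => (1:ℝ)) z
      = (ks (S.lvs (l + 1) S.d) (S.X S.lf k))ᶜ.indicator (fun _ => (1:ℝ))
        ((S.Cg l k).symm (sl (L S.f l) x z)) := rfl
  rw [h2, ← h1]
  rfl

lemma int_fe (hM : 0 ≤ S.M) (hc0 : (S.M + 1) * S.cp.b0 ≤ c0) (hc : c0 ≤ 1 / 16) {l : ℕ}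
    (hl : l ≤ S.lf) (x : E) (k : ℕ) :
    ∫ z, S.fe l x k z ∂(stdGaussian (L S.f l)ᗮ) = S.Fv l k x := by
  unfold fe
  rw [H59.fr_eq_integral (S.fldL_UI hM hc0 hc l k), S.fr_fldL hl]

lemma int_fhd (hM : 0 ≤ S.M) (hc0 : (S.M + 1) * S.cp.b0 ≤ c0) (hc : c0 ≤ 1 / 16) {l : ℕ}
    (hl : l ≤ S.lf) (x : E) (k : ℕ) :
    ∫ z, S.fhd l x k z ∂(stdGaussian (L S.f l)ᗮ) = fr (L S.f l) (S.hdn l k) x := by
  unfold fhd
  rw [H59.fr_eq_integral (S.hdnL_UI hM hc0 hc l k)]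
  exact fr_fixes_symm (S.fixes_Cg hl k) _ x

lemma real_Ks (hM : 0 ≤ S.M) (hc0 : (S.M + 1) * S.cp.b0 ≤ c0) (hc : c0 ≤ 1 / 16) {l : ℕ}
    (hl : l ≤ S.lf) {x : E} (hx : x ∉ S.cp.Z l) (k : ℕ) :
    (stdGaussian (L S.f l)ᗮ).real (S.Ks l x k) = (S.q l k x).toReal := by
  have hKm := S.measurableSet_Ks hM hc0 l x k
  have h1 := S.Fv_add hM hc0 hc hl k hx
  rw [← S.int_fe hM hc0 hc hl, ← S.int_fhd hM hc0 hc hl,
    ← integral_add ((S.fe_UI hM hc0 hc l x k).integrable _)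
      ((S.fhd_UI hM hc0 hc l x k).integrable _)] at h1
  simp_rw [S.split_Ks l x k] at h1
  rw [integral_indicator_const _ hKm.compl, measureReal_compl hKm] at h1
  simp at h1
  linarith

/-- hidden mass against the alive mass -/
lemma hidq (hM : 0 ≤ S.M) (hb : 0 ≤ c0) (hc0 : (S.M + 1) * S.cp.b0 ≤ c0) (hc : c0 ≤ 1 / 16)
    (hd : 4 * (S.d : ℝ) * c0 ≤ 1) {l : ℕ} (hl : l ≤ S.lf) {x : E} (hx : x ∉ S.cp.Z l) (k : ℕ) :
    ∫ z, S.fhd l x k z ∂(stdGaussian (L S.f l)ᗮ)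
      ≤ 2 * S.d * c0 * (stdGaussian (L S.f l)ᗮ).real (S.Ks l x k) := by
  rw [S.int_fhd hM hc0 hc hl, S.real_Ks hM hc0 hc hl hx]
  have hlen : (S.lvs (l + 1) S.d).length ≤ S.d := by rw [S.length_lvs]; omega
  have hlen' : (((S.lvs (l + 1) S.d).length : ℕ) : ℝ) ≤ (S.d : ℝ) := by exact_mod_cast hlen
  have hG := S.good_lvs hM hc0 (l + 1) S.d
  have hX := (S.measurableSet_X S.lf k).compl
  have h1 := H654.fr_hid_le_alive (W := L S.f l) hG hb hc (by nlinarith) (ind_UI hX)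
    (fun p hp => by
      obtain ⟨j, hj, -, rfl⟩ := S.mem_lvs.mp hp
      exact H118.L_mono S.f (by omega)) x
  have h2 : fr (L S.f l) (fun y => al (S.lvs (l + 1) S.d) y * (1 - ind (S.X S.lf k)ᶜ y)) x
      = (S.q l k x).toReal := by
    rw [S.q_eq hM hc0 hl k hx, ENNReal.toReal_ofReal (H654.fr_nonneg (fun y =>
      mul_nonneg ((H654.al_UI hG).nonneg y) (by linarith [ind_le_one (S.X S.lf k)ᶜ y])) x)]
  rw [h2] at h1
  refine h1.trans (mul_le_mul_of_nonneg_right ?_ ENNReal.toReal_nonneg)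
  nlinarith

/-- the caps decrease -/
lemma caps_lvs (hM : 0 ≤ S.M) (hc0 : (S.M + 1) * S.cp.b0 ≤ c0) (l : ℕ) (hl : l ≤ S.lf) :
    H654.Caps S.cp.kap (S.lev l) (S.lvs (l + 1) S.d) := by
  obtain ⟨n, hn⟩ : ∃ n, S.lf - l = n := ⟨_, rfl⟩
  have hd := S.d_eq
  induction n generalizing l with
  | zero =>
    rw [S.lvs_nil (by omega)]; trivial
  | succ n ih =>
    rw [S.lvs_cons (by omega : l + 1 < S.d)]
    refine ⟨fun x hx => ?_, ih (l + 1) (by omega) (by omega)⟩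
    have h1 := S.cp.child l (by omega) x hx
    have hM1 : 0 ≤ S.M + 1 := by linarith
    have hA0 := S.cp.A_pos
    have hb : Bd fun y => nk (S.lev (l + 1)) y * (S.lev (l + 1)).c y :=
      H654.nkc_Bd (S.levOK hM hc0 (l + 1))
    have hn0 : ∀ y, 0 ≤ nk (S.lev (l + 1)) y * (S.lev (l + 1)).c y := fun y =>
      mul_nonneg (H654.nk_nonneg _ y) ((S.levOK hM hc0 (l + 1)).nonneg y)
    have h2 : ENNReal.ofReal (fr (L S.f l) (fun y => nk (S.lev (l + 1)) y * (S.lev (l + 1)).c y) x)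
        ≤ ENNReal.ofReal (S.M + 1) * ENNReal.ofReal (S.cp.kap * S.cp.A l x) := by
      rw [H654.ofReal_fr hb hn0]
      refine le_trans ?_ (mul_le_mul_right h1 _)
      rw [← H395.fib_mul (g := fun _ => ENNReal.ofReal (S.M + 1)) (fun _ _ _ => rfl)]
      · refine fib_mono (fun y => ?_) x
        have h3 : nk (S.lev (l + 1)) y * (S.lev (l + 1)).c y ≤ (S.M + 1) * S.cp.A (l + 1) y := by
          have := H654.nk_le_one (S.lev (l + 1)) y
          have h4 := (S.levOK hM hc0 (l + 1)).nonneg y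
          calc _ ≤ 1 * (S.lev (l + 1)).c y := mul_le_mul_of_nonneg_right this h4
            _ = _ := by rw [one_mul]; rfl
        calc ENNReal.ofReal (nk (S.lev (l + 1)) y * (S.lev (l + 1)).c y)
            ≤ ENNReal.ofReal ((S.M + 1) * S.cp.A (l + 1) y) := ENNReal.ofReal_le_ofReal h3
          _ = ENNReal.ofReal (S.M + 1) * ENNReal.ofReal (S.cp.A (l + 1) y) :=
              ENNReal.ofReal_mul hM1
          _ ≤ _ := mul_le_mul_right le_self_add _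
      · exact (S.cp.A_meas (l + 1)).ennreal_ofReal.add
          (measurable_one.indicator (S.measurableSet_Z (l + 1)))
    rw [← ENNReal.ofReal_mul hM1] at h2
    have hk := S.cp.kap_pos
    have h5 := (ENNReal.ofReal_le_ofReal_iff (by have := hA0 l x; positivity)).mp h2
    calc _ ≤ (S.M + 1) * (S.cp.kap * S.cp.A l x) := h5
      _ = S.cp.kap * (S.lev l).c x := by show _ = S.cp.kap * ((S.M + 1) * S.cp.A l x); ring

/-- hidden mass against the cap -/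
lemma hidA (hM : 0 ≤ S.M) (hc0 : (S.M + 1) * S.cp.b0 ≤ c0) (hc : c0 ≤ 1 / 16)
    (hk : S.cp.kap ≤ 1 / 2) {l : ℕ} (hl : l ≤ S.lf) {x : E} (hx : x ∉ S.cp.Z l) (k : ℕ) :
    ∫ z, S.fhd l x k z ∂(stdGaussian (L S.f l)ᗮ)
      ≤ 2 * S.cp.kap * (S.M + 1) * S.cp.A l x := by
  rw [S.int_fhd hM hc0 hc hl]
  have hd := S.d_eq
  have hG : Good c0 (S.lev l :: S.lvs (l + 1) S.d) := by
    rw [← S.lvs_cons (by omega : l < S.d)]
    exact S.good_lvs hM hc0 l S.d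
  have h1 := H654.fr_hid_le_caps S.cp.kap_pos.le hk hG hc
    (ind_UI (S.measurableSet_X S.lf k).compl) (S.caps_lvs hM hc0 l hl) hx
  calc _ ≤ 2 * S.cp.kap * (S.lev l).c x := h1
    _ = _ := by show 2 * S.cp.kap * ((S.M + 1) * S.cp.A l x) = _; ring

end

end Vale.Agent.P262.M1.Sys
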