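import Vale.Agent.P262.H852.LblA

/-!
# P262, milestone 1, block LAB on `S : Sys E`: the path of fields at a label

The per-move inputs are stated as propositions `StarOut`, `InOut`, `OutOut`.
-/

set_option linter.all false

open MeasureTheory ProbabilityTheory Set
open scoped ENNReal RealInnerProductSpace
open Vale.Agent.P262.H118 (L Iv st en ONB K1 rotE ON tau wd wrd)
open Vale.Agent.P262.H395 (fib mix Inv Fixes fib_mono fib_tower fib_le_one fib_eq_self fib_add)
open Vale.Agent.P262.H493 (star)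
open Vale.Agent.P262.H654 (Lev fl vis wt kt al hid nk fr InvR Good LevOK Bd ks)
open Vale.Agent.P262.H847 (UI)
open Vale.Agent.P262.H941 (FluxLe)
open Vale.Agent.P262.H174 (Soft)
open Vale.Agent.P262.H852 (sl slice measurable_sl_right LPath)
open Vale.Agent.P262.H852.EPath (chg)

namespace Vale.Agent.P262.M1.Sys

variable {E : Type*} [NormedAddCommGroup E] [InnerProductSpace ℝ E] [FiniteDimensional ℝ E]
  [MeasurableSpace E] [BorelSpace E] (S : Sys E)

/-- output of a star move at the labels of level `l < lf` -/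
def StarOut (cs c : ℝ) : Prop := ∀ (l m : ℕ) (x : E), l < S.lf → m < S.mT → S.IsStar m →
  x ∉ S.cp.Z l → ∃ (v : (L S.f l)ᗮ) (mf : (L S.f l)ᗮ → ℝ) (F a1 a2 : ℝ),
    (v : E) = S.word l m ∧ UI mf ∧ FluxLe mf v F ∧
    ∫ z, |mf z - S.fe l x m z| ∂(stdGaussian (L S.f l)ᗮ) ≤ a1 ∧
    ∫ z, |S.fe l x (m + 1) z - mf z| ∂(stdGaussian (L S.f l)ᗮ) ≤ a2 ∧
    ENNReal.ofReal (F + a1 + a2) ≤ S.Gp cs c l m x

/-- output of a reopening or an inner rotation -/
def InOut (cs c : ℝ) : Prop := ∀ (l m : ℕ) (x : E), l < S.lf → m < S.mT →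
  ((S.IsRot m ∧ l ≤ S.el.jj m) ∨ (S.IsRe m ∧ l ≤ S.sv m)) → x ∉ S.cp.Z l →
  ∃ a b : ℝ, 0 ≤ b ∧ Soft (S.fe l x m) (S.fe l x (m + 1)) a b ∧
    ENNReal.ofReal (a + b) ≤ S.Gp cs c l m x

/-- output of an outer rotation -/
def OutOut (C : ℝ) : Prop := ∀ (l m : ℕ) (x : E), l < S.lf → m < S.mT → S.IsRot m →
  S.el.jj m < l → x ∉ S.cp.Z l →
  ∫ z, |S.fe l x (m + 1) z - S.fe l x m z| ∂(stdGaussian (L S.f l)ᗮ) ≤ C * (S.Dl l m x).toReal

/-! ### masses -/

lemma De_le_one (i m : ℕ) (x : E) : S.De i m x ≤ 1 :=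
  fib_le_one (fun y => indicator_le_self' (fun _ _ => zero_le_one) y) x

lemma Dc_le_one (i m : ℕ) (x : E) : S.Dc i m x ≤ 1 :=
  fib_le_one (fun y => indicator_le_self' (fun _ _ => zero_le_one) y) x

lemma q_le_one (i m : ℕ) (x : E) : S.q i m x ≤ 1 :=
  fib_le_one (fun y => indicator_le_self' (fun _ _ => zero_le_one) y) x

lemma De_add_q {l : ℕ} (hl : l ≤ S.lf) (k : ℕ) (x : E) : S.De l k x + S.q l k x ≤ 1 := by
  have m1 : Measurable ((S.X S.lf k)ᶜ.indicator (1 : E → ℝ≥0∞)) :=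
    measurable_one.indicator (S.measurableSet_X S.lf k).compl
  unfold q
  rw [S.De_eq k hl, ← fib_add m1]
  refine fib_le_one (fun y => ?_) x
  by_cases h : y ∈ S.X S.lf k
  · rw [indicator_of_notMem (by simpa using h)]
    simp only [zero_add]
    exact indicator_le_self' (fun _ _ => zero_le_one) y
  · rw [indicator_of_mem (by simpa using h),
      indicator_of_notMem (show y ∉ S.Kq k from fun h' => h h'.1)]
    simp

lemma De_real_le {l : ℕ} (hl : l ≤ S.lf) (k : ℕ) (x : E) :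
    (S.De l k x).toReal ≤ 1 - (S.q l k x).toReal := by
  have h1 := S.De_add_q hl k x
  have h2 : (S.De l k x).toReal + (S.q l k x).toReal ≤ 1 := by
    rw [← ENNReal.toReal_add (ne_top_of_le_ne_top ENNReal.one_ne_top (S.De_le_one l k x))
      (ne_top_of_le_ne_top ENNReal.one_ne_top (S.q_le_one l k x))]
    exact ENNReal.toReal_mono ENNReal.one_ne_top h1
  linarith

lemma Dc_le_add (i m : ℕ) (x : E) : S.Dc i m x ≤ S.De i m x + S.De i (m + 1) x := by
  have m1 : Measurable ((S.X i m)ᶜ.indicator (1 : E → ℝ≥0∞)) :=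
    measurable_one.indicator (S.measurableSet_X i m).compl
  unfold Dc De
  rw [← fib_add m1]
  refine fib_mono (fun y => ?_) x
  by_cases h : y ∈ S.X i m
  · by_cases h' : y ∈ S.X i (m + 1)
    · rw [indicator_of_notMem (by simp [h, h'])]; exact zero_le
    · rw [indicator_of_mem (show y ∈ (S.X i (m + 1))ᶜ from h')]
      exact (indicator_le_self' (fun _ _ => zero_le_one) y).trans le_add_self
  · rw [indicator_of_mem (show y ∈ (S.X i m)ᶜ from h)]
    exact (indicator_le_self' (fun _ _ => zero_le_one) y).trans le_self_add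

lemma Dl_le_Dc (i m : ℕ) (x : E) : S.Dl i m x ≤ S.Dc i m x := by
  unfold Dl Dc
  refine fib_mono (fun y => ?_) x
  by_cases h : y ∈ symmDiff (S.X i m) (S.X i (m + 1))
  · rw [indicator_of_mem h, indicator_of_mem]
    rintro ⟨h1, h2⟩
    rcases h with h | h
    · exact h.2 h2
    · exact h.2 h1
  · rw [indicator_of_notMem h]; exact zero_le

lemma Dc_le_left (i m : ℕ) (x : E) : S.Dc i m x ≤ S.De i m x + S.Dl i m x := by
  have m1 : Measurable ((S.X i m)ᶜ.indicator (1 : E → ℝ≥0∞)) :=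
    measurable_one.indicator (S.measurableSet_X i m).compl
  unfold Dc De Dl
  rw [← fib_add m1]
  refine fib_mono (fun y => ?_) x
  by_cases h : y ∈ S.X i m
  · by_cases h' : y ∈ S.X i (m + 1)
    · rw [indicator_of_notMem (by simp [h, h'])]; exact zero_le
    · rw [indicator_of_mem (show y ∈ symmDiff (S.X i m) (S.X i (m + 1)) from Or.inl ⟨h, h'⟩)]
      exact (indicator_le_self' (fun _ _ => zero_le_one) y).trans le_add_self
  · rw [indicator_of_mem (show y ∈ (S.X i m)ᶜ from h)]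
    exact (indicator_le_self' (fun _ _ => zero_le_one) y).trans le_self_add

lemma Dc_le_right (i m : ℕ) (x : E) : S.Dc i m x ≤ S.De i (m + 1) x + S.Dl i m x := by
  have m1 : Measurable ((S.X i (m + 1))ᶜ.indicator (1 : E → ℝ≥0∞)) :=
    measurable_one.indicator (S.measurableSet_X i (m + 1)).compl
  unfold Dc De Dl
  rw [← fib_add m1]
  refine fib_mono (fun y => ?_) x
  by_cases h : y ∈ S.X i (m + 1)
  · by_cases h' : y ∈ S.X i m
    · rw [indicator_of_notMem (by simp [h, h'])]; exact zero_le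
    · rw [indicator_of_mem (show y ∈ symmDiff (S.X i m) (S.X i (m + 1)) from Or.inr ⟨h, h'⟩)]
      exact (indicator_le_self' (fun _ _ => zero_le_one) y).trans le_add_self
  · rw [indicator_of_mem (show y ∈ (S.X i (m + 1))ᶜ from h)]
    exact (indicator_le_self' (fun _ _ => zero_le_one) y).trans le_self_add

/-- the price of an outer rotation, real form -/
lemma price_real {l : ℕ} (hl : l ≤ S.lf) (k : ℕ) {x : E} (hx : x ∉ S.cp.Z l) :
    S.cp.A l x * (S.Dl l k x).toReal ≤ (S.Xr l k x).toReal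
      * (min (1 - (S.q l k x).toReal) (1 - (S.q l (k + 1) x).toReal) + (S.Dl l k x).toReal) := by
  have hA := S.cp.A_pos l x
  have hDc1 : S.Dc l k x ≠ ⊤ := ne_top_of_le_ne_top ENNReal.one_ne_top (S.Dc_le_one l k x)
  have hDe : ∀ k, S.De l k x ≠ ⊤ := fun k =>
    ne_top_of_le_ne_top ENNReal.one_ne_top (S.De_le_one l k x)
  have hDl1 : S.Dl l k x ≠ ⊤ := ne_top_of_le_ne_top hDc1 (S.Dl_le_Dc l k x)
  have e1 : (S.Xr l k x).toReal = S.cp.A l x * ((S.Dl l k x).toReal / (S.Dc l k x).toReal) := by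
    unfold Xr a
    rw [if_neg hx, ENNReal.toReal_mul, ENNReal.toReal_ofReal hA.le, ENNReal.toReal_div]
  have h1 : (S.Dc l k x).toReal ≤ (S.De l k x).toReal + (S.Dl l k x).toReal := by
    rw [← ENNReal.toReal_add (hDe k) hDl1]
    exact ENNReal.toReal_mono (ENNReal.add_ne_top.mpr ⟨hDe k, hDl1⟩) (S.Dc_le_left l k x)
  have h2 : (S.Dc l k x).toReal ≤ (S.De l (k + 1) x).toReal + (S.Dl l k x).toReal := by
    rw [← ENNReal.toReal_add (hDe (k + 1)) hDl1]
    exact ENNReal.toReal_mono (ENNReal.add_ne_top.mpr ⟨hDe (k + 1), hDl1⟩) (S.Dc_le_right l k x)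
  have h3 := S.De_real_le hl k x
  have h4 := S.De_real_le hl (k + 1) x
  have h5 : (S.Dc l k x).toReal ≤ min (1 - (S.q l k x).toReal) (1 - (S.q l (k + 1) x).toReal)
      + (S.Dl l k x).toReal := by
    rw [← min_add_add_right]
    exact le_min (by linarith) (by linarith)
  have hDl0 : 0 ≤ (S.Dl l k x).toReal := ENNReal.toReal_nonneg
  have hDc0 : 0 ≤ (S.Dc l k x).toReal := ENNReal.toReal_nonneg
  have hle : (S.Dl l k x).toReal ≤ (S.Dc l k x).toReal :=
    ENNReal.toReal_mono hDc1 (S.Dl_le_Dc l k x)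
  rw [e1]
  rcases hDc0.eq_or_lt with h | h
  · have : (S.Dl l k x).toReal = 0 := by linarith
    rw [this]; simp
  · calc S.cp.A l x * (S.Dl l k x).toReal
        = S.cp.A l x * ((S.Dl l k x).toReal / (S.Dc l k x).toReal) * (S.Dc l k x).toReal := by
          field_simp
      _ ≤ _ := mul_le_mul_of_nonneg_left h5 (by positivity)

/-! ### moves inside a block above the leaf -/

lemma tm_of_mem {l m k : ℕ} (hl : l ≠ S.lf) (h1 : S.sB l m ≤ k) (h2 : k < S.eB l m) :
    S.sT l m ≤ S.tm k ∧ S.tm k < S.eT l m := by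
  rw [S.sB_of_ne hl] at h1
  rw [S.eB_of_ne hl] at h2
  have h3 := S.tm_spec k
  constructor
  · by_contra h
    have h4 := S.n_mono (show S.tm k + 1 ≤ S.sT l m by omega)
    omega
  · by_contra h
    have h4 := S.n_mono (show S.eT l m ≤ S.tm k by omega)
    omega

lemma re_le_sv {l m k : ℕ} (hl : l < S.lf) (hm : S.tm m < S.T) (h1 : S.sB l m ≤ k)
    (h2 : k < S.eB l m) (hk : S.IsRe k) : l ≤ S.sv k := by
  obtain ⟨h3, h4⟩ := S.tm_of_mem hl.ne h1 h2
  have hiv := S.iv_T hm l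
  have h5 : S.tm k + 1 < S.eT l m := by
    rcases Nat.lt_or_ge (S.tm k + 1) (S.eT l m) with h | h
    · exact h
    · have e : S.tm k + 1 = S.eT l m := by omega
      rw [S.eB_of_ne hl.ne] at h2
      unfold IsRe at hk
      rw [e] at hk
      omega
  have h6 : S.tm k + 1 ∉ S.K.nb l := hiv.2.2.2.2 _ (by omega) h5
  have h7 : S.tm k + 1 ∉ S.K.nw l := fun h => h6 (S.K.nw_subset_nb l h)
  unfold sv
  classical exact Nat.le_findGreatest hl.le h7

end Vale.Agent.P262.M1.Sys
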