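import Vale.Agent.P262.H852.LblB

/-!
# P262, milestone 1, block LAB on `S : Sys E`: (LBL) and (LBI)
-/

set_option linter.all false

open MeasureTheory ProbabilityTheory Set
open scoped ENNReal RealInnerProductSpace
open Vale.Agent.P262.H118 (L Iv st en ONB K1 rotE ON tau wd wrd)
open Vale.Agent.P262.H395 (fib mix Inv Fixes fib_mono fib_tower fib_le_one fib_eq_self fib_add)
open Vale.Agent.P262.H493 (star)
open Vale.Agent.P262.H654 (Lev fl vis wt kt al hid nk fr InvR Good LevOK Bd ks)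
open Vale.Agent.P262.H847 (UI)
open Vale.Agent.P262.H941 (FluxLe)
open Vale.Agent.P262.H174 (Soft)
open Vale.Agent.P262.H852 (sl slice measurable_sl_right LPath)
open Vale.Agent.P262.H852.EPath (chg)

namespace Vale.Agent.P262.M1.Sys

variable {E : Type*} [NormedAddCommGroup E] [InnerProductSpace ℝ E] [FiniteDimensional ℝ E]
  [MeasurableSpace E] [BorelSpace E] (S : Sys E)

open Classical in
/-- the word of level `l` in elementary time -/
noncomputable def uu (l : ℕ) (k : ℕ) : (L S.f l)ᗮ :=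
  if S.IsStar k then wd (L S.f l) (wrd S.v (S.K.S l)) (S.tm k) else 0

/-- real charges -/
noncomputable def Gr (cs c : ℝ) (l : ℕ) (x : E) (k : ℕ) : ℝ := (S.Gp cs c l k x).toReal

open Classical in
noncomputable def Δr (C : ℝ) (l : ℕ) (x : E) (k : ℕ) : ℝ :=
  if S.IsRot k ∧ S.el.jj k < l then C * (S.Dl l k x).toReal else 0

noncomputable def Qr (C : ℝ) (l : ℕ) (x : E) (k : ℕ) : ℝ := C * (S.Qp l k x).toReal

/-- the choice at one move -/
lemma move_data {cs c C : ℝ} (hst : S.StarOut cs c) (hin : S.InOut cs c) (hout : S.OutOut C)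
    {c0 : ℝ} (hM : 0 ≤ S.M) (hc0 : (S.M + 1) * S.cp.b0 ≤ c0) (hc : c0 ≤ 1 / 16)
    {l m : ℕ} (hl : l < S.lf) (hm : m < S.mT) {x : E} (hx : x ∉ S.cp.Z l)
    (hfin : ∀ k, S.sB l m ≤ k → k < S.eB l m → S.Gp cs c l k x ≠ ⊤) (k : ℕ) :
    ∃ (fh : (L S.f l)ᗮ → ℝ) (F al be al' be' : ℝ), UI fh ∧
      (S.sB l m ≤ k → k < S.eB l m → FluxLe fh (S.uu l k) F ∧ Soft (S.fe l x k) fh al be ∧
        Soft fh (S.fe l x (k + 1)) al' be' ∧ 0 ≤ be ∧ 0 ≤ be' ∧
        F + (al + be) + (al' + be') ≤ S.Gr cs c l x k + S.Δr C l x k) := by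
  classical
  have hfU := S.fe_UI hM hc0 hc l x
  by_cases hk : S.sB l m ≤ k ∧ k < S.eB l m
  swap
  · exact ⟨S.fe l x k, 0, 0, 0, 0, 0, hfU k, fun h1 h2 => absurd ⟨h1, h2⟩ hk⟩
  obtain ⟨h1, h2⟩ := hk
  have htm := S.tm_lt_of_lt hm
  have hkT : k < S.mT := lt_of_lt_of_le h2 (S.eB_le_mT htm l)
  have hG := hfin k h1 h2
  rcases S.cases_move k with h | h | h
  · -- star
    obtain ⟨v, mf, F, a1, a2, hv, hmf, hF, ha1, ha2, hsum⟩ := hst l k x hl hkT h hx
    refine ⟨mf, F, a1, 0, a2, 0, hmf, fun _ _ => ⟨?_, ?_, ?_, le_rfl, le_rfl, ?_⟩⟩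
    · have e : S.uu l k = v := by
        unfold uu
        rw [if_pos h]
        apply Subtype.ext
        have hmem : wrd S.v (S.K.S l) (S.tm k) ∈ (L S.f l)ᗮ := by
          have h3 : (v : E) = wrd S.v (S.K.S l) (S.tm k) := hv
          rw [← h3]; exact v.2
        rw [H118.coe_wd hmem, hv]
        rfl
      rw [e]; exact hF
    · exact (Soft.of_L1 (hfU k) hmf).mono ha1 le_rfl
    · exact (Soft.of_L1 hmf (hfU (k + 1))).mono ha2 le_rfl
    · have h3 : F + a1 + a2 ≤ S.Gr cs c l x k := by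
        unfold Gr
        exact (ENNReal.ofReal_le_iff_le_toReal hG).mp hsum
      have h4 : S.Δr C l x k = 0 := by
        unfold Δr
        rw [if_neg]
        exact fun h5 => h5.1.not_star S h
      rw [h4]
      linarith
  · -- rotation
    have huu : S.uu l k = 0 := by unfold uu; rw [if_neg (h.not_star S)]
    rcases Nat.lt_or_ge (S.el.jj k) l with hj | hj
    · have h3 := hout l k x hl hkT h hj hx
      refine ⟨S.fe l x k, 0, 0, 0, C * (S.Dl l k x).toReal, 0, hfU k,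
        fun _ _ => ⟨?_, Soft.refl _, (Soft.of_L1 (hfU k) (hfU (k + 1))).mono h3 le_rfl, le_rfl,
          le_rfl, ?_⟩⟩
      · rw [huu]; exact H274.fluxLe_zero
      · have h4 : S.Δr C l x k = C * (S.Dl l k x).toReal := by
          unfold Δr; rw [if_pos ⟨h, hj⟩]
        have h5 : 0 ≤ S.Gr cs c l x k := ENNReal.toReal_nonneg
        rw [h4]; linarith
    · obtain ⟨a, b, hb, hs, hsum⟩ := hin l k x hl hkT (Or.inl ⟨h, hj⟩) hx
      refine ⟨S.fe l x k, 0, 0, 0, a, b, hfU k,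
        fun _ _ => ⟨?_, Soft.refl _, hs, le_rfl, hb, ?_⟩⟩
      · rw [huu]; exact H274.fluxLe_zero
      · have h3 : a + b ≤ S.Gr cs c l x k := (ENNReal.ofReal_le_iff_le_toReal hG).mp hsum
        have h4 : S.Δr C l x k = 0 := by
          unfold Δr; rw [if_neg]; intro h5; omega
        rw [h4]; linarith
  · -- reopening
    have huu : S.uu l k = 0 := by unfold uu; rw [if_neg (h.not_star S)]
    obtain ⟨a, b, hb, hs, hsum⟩ := hin l k x hl hkT
      (Or.inr ⟨h, S.re_le_sv hl htm h1 h2 h⟩) hx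
    refine ⟨S.fe l x k, 0, 0, 0, a, b, hfU k,
      fun _ _ => ⟨?_, Soft.refl _, hs, le_rfl, hb, ?_⟩⟩
    · rw [huu]; exact H274.fluxLe_zero
    · have h3 : a + b ≤ S.Gr cs c l x k := (ENNReal.ofReal_le_iff_le_toReal hG).mp hsum
      have h4 : S.Δr C l x k = 0 := by
        unfold Δr; rw [if_neg]; exact fun h5 => h5.1.not_re S h
      rw [h4]; linarith

/-- **the path of one label during one block above the leaf** -/
theorem lpath {cs c C : ℝ} (hst : S.StarOut cs c) (hin : S.InOut cs c) (hout : S.OutOut C)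
    (hC : 1 ≤ C) {c0 : ℝ} (hM : 0 ≤ S.M) (hR : 0 ≤ S.R) (hb : 0 ≤ c0)
    (hc0 : (S.M + 1) * S.cp.b0 ≤ c0) (hc : c0 ≤ 1 / 16)
    (hd : 2 * (S.d : ℝ) * c0 ≤ 1 / 10 ^ 11) (hk : 2 * S.cp.kap * (S.M + 1) ≤ 1 / 10 ^ 11)
    (hk' : S.cp.kap ≤ 1 / 2) (hb1 : S.cp.b0 ≤ 1)
    {l m : ℕ} (hl : l < S.lf) (hm : m < S.mT) {x : E} (hx : x ∉ S.cp.Z l)
    (hfin : ∀ k, S.sB l m ≤ k → k < S.eB l m → S.Gp cs c l k x ≠ ⊤) :
    ∃ (fh : ℕ → (L S.f l)ᗮ → ℝ) (F al be al' be' : ℕ → ℝ),
      LPath (S.uu l) (S.fe l x) fh (S.fhd l x) (S.Ks l x) F al be al' be' (S.Gr cs c l x)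
        (S.Δr C l x) (S.Qr C l x) (S.cp.A l x) (1 / 10 ^ 11) S.R (S.sB l m) (S.eB l m) := by
  classical
  choose fh F al be al' be' hU hmv using S.move_data hst hin hout hM hc0 hc hl hm hx hfin
  have hA := S.cp.A_pos l x
  have hd4 : 4 * (S.d : ℝ) * c0 ≤ 1 := by
    have : (1:ℝ) / 10 ^ 11 ≤ 1 / 2 := by norm_num
    linarith
  refine ⟨fh, F, al, be, al', be', ⟨?_, ?_, ?_, ?_, ?_, ?_, ?_⟩, ?_, ?_, ?_, ?_, ?_, ?_, ?_, ?_,
    ?_, ?_, ?_, ?_, ?_, ?_, ?_, ?_, ?_⟩
  · exact S.fe_UI hM hc0 hc l x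
  · exact hU
  · exact fun t h1 h2 => (hmv t h1 h2).1
  · exact fun t h1 h2 => (hmv t h1 h2).2.1
  · exact fun t h1 h2 => (hmv t h1 h2).2.2.1
  · exact fun t h1 h2 => (hmv t h1 h2).2.2.2.1
  · exact fun t h1 h2 => (hmv t h1 h2).2.2.2.2.1
  · exact S.fhd_UI hM hc0 hc l x
  · exact fun t _ _ => S.convex_Ks l x t
  · exact fun t _ _ => S.measurableSet_Ks hM hc0 l x t
  · exact fun t _ _ => S.ball_Ks l x t
  · exact fun t _ _ z => S.split_Ks l x t z
  · intro t _ _
    exact (S.hidA hM hc0 hc hk' hl.le hx t).trans (mul_le_mul_of_nonneg_right hk hA.le)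
  · intro t _ _
    exact (S.hidq hM hb hc0 hc hd4 hl.le hx t).trans
      (mul_le_mul_of_nonneg_right hd measureReal_nonneg)
  · exact hA.le
  · exact (S.cp.A_le l x hx).trans hb1
  · positivity
  · exact le_rfl
  · exact hR
  · intro t h1 h2
    have h3 := (hmv t h1 h2).2.2.2.2.2
    unfold chg
    exact h3
  · exact fun t _ _ => ENNReal.toReal_nonneg
  · intro t _ _
    unfold Δr
    split_ifs
    · exact mul_nonneg (by linarith) ENNReal.toReal_nonneg
    · exact le_rfl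
  · exact fun t _ _ => mul_nonneg (by linarith) ENNReal.toReal_nonneg
  · intro t h1 h2
    right
    rw [S.real_Ks hM hc0 hc hl.le hx, S.real_Ks hM hc0 hc hl.le hx]
    by_cases h : S.IsRot t ∧ S.el.jj t < l
    · have e1 : S.Δr C l x t = C * (S.Dl l t x).toReal := by unfold Δr; rw [if_pos h]
      have e2 : S.Qr C l x t = C * (S.Xr l t x).toReal := by
        unfold Qr Qp; rw [if_pos h]
      rw [e1, e2]
      have h3 := S.price_real hl.le t hx
      have h4 : 0 ≤ (S.Dl l t x).toReal := ENNReal.toReal_nonneg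
      have h5 : 0 ≤ (S.Xr l t x).toReal := ENNReal.toReal_nonneg
      have h6 : (S.Dl l t x).toReal ≤ C * (S.Dl l t x).toReal := le_mul_of_one_le_left h4 hC
      calc S.cp.A l x * (C * (S.Dl l t x).toReal) = C * (S.cp.A l x * (S.Dl l t x).toReal) := by ring
        _ ≤ C * ((S.Xr l t x).toReal * (min (1 - (S.q l t x).toReal)
            (1 - (S.q l (t + 1) x).toReal) + (S.Dl l t x).toReal)) :=
            mul_le_mul_of_nonneg_left h3 (by linarith)
        _ ≤ C * ((S.Xr l t x).toReal * (min (1 - (S.q l t x).toReal)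
            (1 - (S.q l (t + 1) x).toReal) + C * (S.Dl l t x).toReal)) := by
            apply mul_le_mul_of_nonneg_left _ (by linarith)
            apply mul_le_mul_of_nonneg_left _ h5
            linarith
        _ = _ := by ring
    · have e1 : S.Δr C l x t = 0 := by unfold Δr; rw [if_neg h]
      have e2 : S.Qr C l x t = 0 := by unfold Qr Qp; rw [if_neg h]; simp
      rw [e1, e2]; simp

end Vale.Agent.P262.M1.Sys
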