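import Vale.Agent.P262.H852.LblC

/-!
# P262, milestone 1: (LBL) and (LBI) of `M1/Blocks`
-/

set_option linter.all false

open MeasureTheory ProbabilityTheory Set
open scoped ENNReal RealInnerProductSpace
open Vale.Agent.P262.H118 (L Iv st en ONB K1 rotE ON tau wd wrd)
open Vale.Agent.P262.H395 (fib mix Inv Fixes fib_mono fib_tower fib_le_one fib_eq_self fib_add)
open Vale.Agent.P262.H654 (Lev fl vis wt kt al hid nk fr InvR Good LevOK Bd ks)
open Vale.Agent.P262.H847 (UI)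
open Vale.Agent.P262.H852 (sl slice measurable_sl_right LPath)
open Vale.Agent.P262.H852.EPath (chg)
open Vale.Agent.P262.H274 (Slow)

namespace Vale.Agent.P262.M1.Sys

variable {E : Type*} [NormedAddCommGroup E] [InnerProductSpace ℝ E] [FiniteDimensional ℝ E]
  [MeasurableSpace E] [BorelSpace E] (S : Sys E)

/-- the real sum of the charges against the sum in `ℝ≥0∞` -/
lemma sum_real_le {cs c C : ℝ} (hC : 1 ≤ C) {l : ℕ} {x : E} {a b : ℕ}
    (hfin : ∑ k ∈ Finset.Ico a b, (S.Gp cs c l k x + S.Qp l k x) ≠ ⊤) :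
    ∑ k ∈ Finset.Ico a b, S.Gr cs c l x k + ∑ k ∈ Finset.Ico a b, S.Qr C l x k
      ≤ C * (∑ k ∈ Finset.Ico a b, (S.Gp cs c l k x + S.Qp l k x)).toReal := by
  have hf : ∀ k ∈ Finset.Ico a b, S.Gp cs c l k x + S.Qp l k x ≠ ⊤ :=
    fun k hk => ne_top_of_le_ne_top hfin (Finset.single_le_sum
      (f := fun k => S.Gp cs c l k x + S.Qp l k x) (fun _ _ => zero_le) hk)
  rw [ENNReal.toReal_sum hf, Finset.mul_sum, ← Finset.sum_add_distrib]
  refine Finset.sum_le_sum fun k hk => ?_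
  have h1 := ENNReal.add_ne_top.mp (hf k hk)
  rw [ENNReal.toReal_add h1.1 h1.2]
  unfold Gr Qr
  have h2 : 0 ≤ (S.Gp cs c l k x).toReal := ENNReal.toReal_nonneg
  nlinarith

/-- the cap is reached -/
lemma exists_reach (hM : 2 ≤ S.M) {l m : ℕ} (hl : l < S.lf) (hm : m < S.mT) {x : E}
    (hx : x ∈ S.om l m) :
    ∃ σ, S.sB l m ≤ σ ∧ σ ≤ S.eB l m ∧ S.cp.A l x ≤ 1 - (S.q l σ x).toReal := by
  have hA := S.cp.A_pos l x
  have htm := S.tm_lt_of_lt hm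
  have hDe : ∀ k, S.De l k x ≠ ⊤ := fun k =>
    ne_top_of_le_ne_top ENNReal.one_ne_top (S.De_le_one l k x)
  have key : ∀ k, ENNReal.ofReal (S.cp.A l x) ≤ S.De l k x →
      S.cp.A l x ≤ 1 - (S.q l k x).toReal := by
    intro k h
    have h1 := S.De_real_le hl.le k x
    have h2 := (ENNReal.ofReal_le_iff_le_toReal (hDe k)).mp h
    linarith
  rcases hx.2 with h | ⟨k, h1, h2, h3⟩
  · exact ⟨S.eB l m, (S.sB_le l m).trans (S.le_eB htm l), le_rfl, key _ h⟩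
  · have h4 := h3.trans (S.Dc_le_add l k x)
    have h5 : S.M * S.cp.A l x ≤ (S.De l k x).toReal + (S.De l (k + 1) x).toReal := by
      rw [← ENNReal.toReal_add (hDe k) (hDe (k + 1))]
      exact (ENNReal.ofReal_le_iff_le_toReal (ENNReal.add_ne_top.mpr ⟨hDe k, hDe (k + 1)⟩)).mp h4
    have h6 := S.De_real_le hl.le k x
    have h7 := S.De_real_le hl.le (k + 1) x
    rcases le_total (S.cp.A l x) ((S.De l k x).toReal) with h | h
    · exact ⟨k, h1, h2.le, by linarith⟩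
    · exact ⟨k + 1, by omega, h2, by nlinarith⟩

/-- the word of a complete block is not slow in elementary time -/
lemma not_slow_block {l m : ℕ} (hl : l < S.lf) (hm : m < S.mT) (hcpl : S.Cpl l m) :
    ¬ Slow (S.uu l) (S.N / 2) 1 (S.sB l m) (S.eB l m) := by
  have htm := S.tm_lt_of_lt hm
  rw [S.sB_of_ne hl.ne, S.eB_of_ne hl.ne]
  have hiv := S.iv_T htm l
  have hse : S.sT l m < S.eT l m := hiv.2.1
  refine H852.not_slow_elem (u := wd (L S.f l) (wrd S.v (S.K.S l))) hse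
    (fun t _ _ => S.el.n_lt t) ?_ ?_ hcpl
  · have h1 := S.el.n_succ (S.eT l m - 1)
    have e : S.eT l m - 1 + 1 = S.eT l m := by omega
    rw [e] at h1
    omega
  · intro t h1 h2
    unfold uu
    rw [if_pos (S.isStar_iff.mpr ⟨t, rfl⟩), S.tm_n]

lemma norm_uu_le (hδ : S.δ ≤ 1) {l : ℕ} (hl : l < S.lf) {k : ℕ} (hk : k < S.mT) :
    ‖S.uu l k‖ ≤ 1 := by
  unfold uu
  split_ifs with h
  · have hd := S.d_eq
    have hmem : wrd S.v (S.K.S l) (S.tm k) ∈ (L S.f l)ᗮ := S.word_mem hk (i := l) (by omega)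
    rw [H118.norm_wd hmem]
    have : ‖wrd S.v (S.K.S l) (S.tm k)‖ = S.δ := S.norm_word hk l
    exact this.le.trans hδ
  · simp

/-- all the hypotheses on the constants and the per-move outputs -/
structure LabHyp (cs c C Amin c0 : ℝ) : Prop where
  st : S.StarOut cs c
  inn : S.InOut cs c
  out : S.OutOut C
  C1 : 1 ≤ C
  M2 : 2 ≤ S.M
  R0 : 0 ≤ S.R
  N0 : 0 < S.N
  N1 : S.N ≤ 1
  δ1 : S.δ ≤ 1
  c00 : 0 ≤ c0
  hc0 : (S.M + 1) * S.cp.b0 ≤ c0
  hc : c0 ≤ 1 / 16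
  hd : 2 * (S.d : ℝ) * c0 ≤ 1 / 10 ^ 11
  hk : 2 * S.cp.kap * (S.M + 1) ≤ 1 / 10 ^ 11
  hk' : S.cp.kap ≤ 1 / 2
  hb1 : S.cp.b0 ≤ 1
  Am0 : 0 < Amin
  Am : ∀ l x, l < S.lf → x ∉ S.cp.Z l → Amin ≤ S.cp.A l x
  NA : S.N ^ 2 * (1 - Real.log (9 / 10 * Amin)) * (3 * 10 ^ 8 * (S.d + 1)) ≤ 1

variable {S}

/-- **(LBL)** -/
theorem LabHyp.LBL {cs c C Amin c0 : ℝ} (H : S.LabHyp cs c C Amin c0) {cL : ℝ}
    (hcL : cL * (2 * 10 ^ 15 * (S.d + 1) ^ 5 * (1 + S.R) ^ 2 * C) ≤ S.N) : S.LBL cL cs c := by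
  intro l m x hl hm hH hx hcpl k hk
  by_cases hfin : ∑ m' ∈ Finset.Ico (S.sB l m) (S.eB l m), (S.Gp cs c l m' x + S.Qp l m' x) = ⊤
  · rw [hfin]; exact le_top
  have hxZ := hx.1
  have hC := H.C1
  have hR := H.R0
  have hA := S.cp.A_pos l x
  have hM : 0 ≤ S.M := by linarith [H.M2]
  have htm := S.tm_lt_of_lt hm
  have hf : ∀ k, S.sB l m ≤ k → k < S.eB l m → S.Gp cs c l k x ≠ ⊤ := fun k h1 h2 =>
    (ENNReal.add_ne_top.mp (ne_top_of_le_ne_top hfin (Finset.single_le_sum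
      (f := fun m' => S.Gp cs c l m' x + S.Qp l m' x) (fun _ _ => zero_le)
      (Finset.mem_Ico.mpr ⟨h1, h2⟩)))).1
  obtain ⟨fh, F, al, be, al', be', P⟩ := S.lpath H.st H.inn H.out H.C1 hM H.R0 H.c00 H.hc0 H.hc H.hd
    H.hk H.hk' H.hb1 hl hm hxZ hf
  obtain ⟨σ, hσ1, hσ2, hσ⟩ := S.exists_reach H.M2 hl hm hx
  have hab : S.sB l m ≤ S.eB l m := (S.sB_le l m).trans (S.le_eB htm l)
  have hfr : (Module.finrank ℝ (L S.f l)ᗮ : ℝ) ≤ S.d := by
    have h1 := (L S.f l).finrank_add_finrank_orthogonal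
    rw [S.hd] at h1
    have : Module.finrank ℝ (L S.f l)ᗮ ≤ S.d := by omega
    exact_mod_cast this
  have hfr0 : (0:ℝ) ≤ Module.finrank ℝ (L S.f l)ᗮ := Nat.cast_nonneg _
  have hN0 := H.N0
  have hN1 := H.N1
  have hAm := H.Am l x hl hxZ
  have hAm0 := H.Am0
  have hA1 : S.cp.A l x ≤ 1 := (S.cp.A_le l x hxZ).trans H.hb1
  have hlog : Real.log (9 / 10 * Amin) ≤ Real.log (9 / 10 * S.cp.A l x) :=
    Real.log_le_log (by positivity) (by linarith)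
  have hlog0 : Real.log (9 / 10 * S.cp.A l x) ≤ 0 :=
    Real.log_nonpos (by positivity) (by linarith)
  have key := P.complete (N := S.N / 2) (by positivity) (by linarith) hab
    (fun t h1 h2 => S.norm_uu_le H.δ1 hl (lt_of_lt_of_le h2 (S.eB_le_mT htm l)))
    (S.not_slow_block hl hm hcpl) (by
      refine le_trans ?_ H.NA
      have e1 : (S.N / 2) ^ 2 ≤ S.N ^ 2 := by nlinarith [sq_nonneg S.N]
      have e2 : 1 - Real.log (9 / 10 * S.cp.A l x) ≤ 1 - Real.log (9 / 10 * Amin) := by linarith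
      have e3 : (3:ℝ) * 10 ^ 8 * (Module.finrank ℝ (L S.f l)ᗮ + 1) ≤ 3 * 10 ^ 8 * (S.d + 1) := by
        linarith
      have e4 : 0 ≤ 1 - Real.log (9 / 10 * S.cp.A l x) := by linarith
      exact mul_le_mul (mul_le_mul e1 e2 e4 (sq_nonneg _)) e3 (by positivity)
        (mul_nonneg (sq_nonneg _) (by linarith)))
    hσ1 hσ2 (by rw [S.real_Ks hM H.hc0 H.hc hl.le hxZ]; exact hσ) hk.1 hk.2
  rw [S.real_Ks hM H.hc0 H.hc hl.le hxZ] at key
  have hsum := S.sum_real_le (cs := cs) (c := c) H.C1 hfin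
  set sr := (∑ m' ∈ Finset.Ico (S.sB l m) (S.eB l m),
    (S.Gp cs c l m' x + S.Qp l m' x)).toReal with hsr
  have hsr0 : 0 ≤ sr := ENNReal.toReal_nonneg
  have hq0 : 0 ≤ (S.q l k x).toReal := ENNReal.toReal_nonneg
  have hqt : S.q l k x ≠ ⊤ := ne_top_of_le_ne_top ENNReal.one_ne_top (S.q_le_one l k x)
  have h1 : S.N / 2 * (S.cp.A l x * (S.q l k x).toReal)
      ≤ 10 ^ 15 * (S.d + 1) ^ 5 * (1 + S.R) ^ 2 * (C * sr) := by
    refine key.trans ?_
    have e1 : (10:ℝ) ^ 15 * (Module.finrank ℝ (L S.f l)ᗮ + 1) ^ 5 * (1 + S.R) ^ 2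
        ≤ 10 ^ 15 * (S.d + 1) ^ 5 * (1 + S.R) ^ 2 := by
      gcongr
    have e2 : 0 ≤ (10:ℝ) ^ 15 * (Module.finrank ℝ (L S.f l)ᗮ + 1) ^ 5 * (1 + S.R) ^ 2 := by
      positivity
    calc _ ≤ (10:ℝ) ^ 15 * (Module.finrank ℝ (L S.f l)ᗮ + 1) ^ 5 * (1 + S.R) ^ 2 * (C * sr) :=
          mul_le_mul_of_nonneg_left hsum e2
      _ ≤ _ := mul_le_mul_of_nonneg_right e1 (by positivity)
  have hd0 : (0:ℝ) ≤ S.d := Nat.cast_nonneg _
  have hD : 0 < 2 * 10 ^ 15 * ((S.d : ℝ) + 1) ^ 5 * (1 + S.R) ^ 2 * C := by positivity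
  have h2 : cL * S.cp.A l x * (S.q l k x).toReal ≤ sr := by
    have e1 : cL ≤ S.N / (2 * 10 ^ 15 * ((S.d : ℝ) + 1) ^ 5 * (1 + S.R) ^ 2 * C) := by
      rw [le_div_iff₀ hD]; exact hcL
    have e2 : 0 ≤ S.cp.A l x * (S.q l k x).toReal := by positivity
    have e3 : cL * (S.cp.A l x * (S.q l k x).toReal)
        ≤ S.N / (2 * 10 ^ 15 * ((S.d : ℝ) + 1) ^ 5 * (1 + S.R) ^ 2 * C)
          * (S.cp.A l x * (S.q l k x).toReal) := mul_le_mul_of_nonneg_right e1 e2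
    rw [mul_assoc]
    refine e3.trans ?_
    rw [div_mul_eq_mul_div, div_le_iff₀ hD]
    linarith
  rcases le_total cL 0 with hneg | hpos
  · have : ENNReal.ofReal (cL * S.cp.A l x) = 0 :=
      ENNReal.ofReal_of_nonpos (mul_nonpos_of_nonpos_of_nonneg hneg hA.le)
    rw [this, zero_mul]; exact zero_le
  · rw [← ENNReal.ofReal_toReal hqt, ← ENNReal.ofReal_mul (by positivity),
      ENNReal.ofReal_le_iff_le_toReal hfin]
    exact h2

/-- **(LBI)** -/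
theorem LabHyp.LBI {cs c C Amin c0 : ℝ} (H : S.LabHyp cs c C Amin c0) (hcC : 20 * C ≤ c) :
    S.LBI cs c := by
  intro l m x hl hm hH hx k hk
  have hC := H.C1
  have hc1 : 0 < c := by linarith
  by_cases hfin : ∑ m' ∈ Finset.Ico (S.sB l m) (S.eB l m), (S.Gp cs c l m' x + S.Qp l m' x) = ⊤
  · rw [hfin, ENNReal.mul_top (by simpa using hc1)]
    exact le_top.trans le_add_self
  have hxZ := hx.1
  have hR := H.R0
  have hA := S.cp.A_pos l x
  have hM : 0 ≤ S.M := by linarith [H.M2]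
  have htm := S.tm_lt_of_lt hm
  have hf : ∀ k, S.sB l m ≤ k → k < S.eB l m → S.Gp cs c l k x ≠ ⊤ := fun k h1 h2 =>
    (ENNReal.add_ne_top.mp (ne_top_of_le_ne_top hfin (Finset.single_le_sum
      (f := fun m' => S.Gp cs c l m' x + S.Qp l m' x) (fun _ _ => zero_le)
      (Finset.mem_Ico.mpr ⟨h1, h2⟩)))).1
  obtain ⟨fh, F, al, be, al', be', P⟩ := S.lpath H.st H.inn H.out H.C1 hM H.R0 H.c00 H.hc0 H.hc H.hd
    H.hk H.hk' H.hb1 hl hm hxZ hf
  have hab : S.sB l m ≤ S.eB l m := (S.sB_le l m).trans (S.le_eB htm l)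
  have key := P.incomplete le_rfl hab hk.1 hk.2
  rw [S.real_Ks hM H.hc0 H.hc hl.le hxZ, S.real_Ks hM H.hc0 H.hc hl.le hxZ] at key
  have hsum := S.sum_real_le (cs := cs) (c := c) H.C1 hfin
  set sr := (∑ m' ∈ Finset.Ico (S.sB l m) (S.eB l m),
    (S.Gp cs c l m' x + S.Qp l m' x)).toReal with hsr
  have hsr0 : 0 ≤ sr := ENNReal.toReal_nonneg
  have hqt : ∀ k, S.q l k x ≠ ⊤ := fun k =>
    ne_top_of_le_ne_top ENNReal.one_ne_top (S.q_le_one l k x)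
  have hq0 : ∀ k, 0 ≤ (S.q l k x).toReal := fun k => ENNReal.toReal_nonneg
  have h1 : S.cp.A l x * (S.q l k x).toReal
      ≤ 2 * (S.cp.A l x * (S.q l (S.sB l m) x).toReal) + c * sr := by
    refine key.trans (add_le_add le_rfl ?_)
    calc _ ≤ 20 * (C * sr) := mul_le_mul_of_nonneg_left hsum (by norm_num)
      _ = 20 * C * sr := by ring
      _ ≤ _ := mul_le_mul_of_nonneg_right hcC hsr0
  have e1 : ENNReal.ofReal (S.cp.A l x) * S.q l k x
      = ENNReal.ofReal (S.cp.A l x * (S.q l k x).toReal) := by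
    rw [ENNReal.ofReal_mul hA.le, ENNReal.ofReal_toReal (hqt k)]
  have e2 : 2 * (ENNReal.ofReal (S.cp.A l x) * S.q l (S.sB l m) x)
      = ENNReal.ofReal (2 * (S.cp.A l x * (S.q l (S.sB l m) x).toReal)) := by
    rw [ENNReal.ofReal_mul (by norm_num), ENNReal.ofReal_mul hA.le, ENNReal.ofReal_toReal (hqt _)]
    norm_num
  have e3 : ENNReal.ofReal c * ∑ m' ∈ Finset.Ico (S.sB l m) (S.eB l m),
      (S.Gp cs c l m' x + S.Qp l m' x) = ENNReal.ofReal (c * sr) := by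
    rw [ENNReal.ofReal_mul hc1.le, hsr, ENNReal.ofReal_toReal hfin]
  have p1 : 0 ≤ 2 * (S.cp.A l x * (S.q l (S.sB l m) x).toReal) := by
    have := hq0 (S.sB l m); positivity
  rw [e1, e2, e3, ← ENNReal.ofReal_add p1 (by positivity)]
  exact ENNReal.ofReal_le_ofReal h1

end Vale.Agent.P262.M1.Sys
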