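import Vale.Agent.P262.H852.LblD
import Vale.Agent.P262.H59.StarGp
import Vale.Agent.P262.H654.ReGp
import Vale.Agent.P262.H712.RotGp
import Vale.Agent.P262.H606.Out

/-!
# P262, milestone 1: the labelwise inputs (LBL), (LBI) of `M1/Blocks` on `S : Sys E`

The per-move outputs of 59 (star), 654 (reopening), 712 (inner rotation), 606 (outer rotation) are
inserted in `LabHyp`.
-/

set_option linter.all false

open MeasureTheory ProbabilityTheory Set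
open scoped ENNReal RealInnerProductSpace
open Vale.Agent.P262.H118 (L Iv st en ONB K1 rotE ON tau)
open Vale.Agent.P262.H654 (Bd sg fr)
open Vale.Agent.P262.H847 (UI)
open Vale.Agent.P262.H852 (sl slice)
open Vale.Agent.P262.H174 (Soft)

namespace Vale.Agent.P262.M1.Sys

variable {E : Type*} [NormedAddCommGroup E] [InnerProductSpace ℝ E] [FiniteDimensional ℝ E]
  [MeasurableSpace E] [BorelSpace E] (S : Sys E)

/-- stars -/
theorem starOut_of {c0 cs : ℝ} (hM : 2 ≤ S.M) (h0 : 0 ≤ c0) (hc0 : (S.M + 1) * S.cp.b0 ≤ c0)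
    (hc : c0 ≤ 1 / 16) (hk : S.cp.kap ≤ 1) (hδ : 0 < S.δ) (hδ' : S.δ ≤ 1 / 10)
    (hsg : sg c0 ^ S.d ≤ 2) (hcs : 8 ≤ cs) (c : ℝ) : S.StarOut cs c := by
  intro l m x hl hm hst hx
  obtain ⟨mf, F, a₁, a₂, h1, h2, h3, h4, h5, h6, h7, h8⟩ :=
    S.star_gp hM h0 hc0 hc hk hδ hδ' hsg hcs c hl hm hst x
  exact ⟨S.wordL l m hl.le hm, mf, F, a₁, a₂, rfl, h1, h5, h6, h7, h8⟩

/-- reopenings and inner rotations -/
theorem inOut_of {c0 c : ℝ} (hM : 1 ≤ S.M) (hc0 : (S.M + 1) * S.cp.b0 ≤ c0)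
    (hc : c0 ≤ 1 / 16) (hdc : 16 * (S.d : ℝ) * c0 ≤ 1) (hk : S.cp.kap ≤ 1 / 6)
    (hR : 0 ≤ S.R) (hsg : sg c0 ^ S.d ≤ 2) (cs : ℝ) (hc1 : 144 * (S.M + 1) ≤ c)
    (hc2 : (20 * S.R + 16) * (S.M + 1) ≤ c) : S.InOut cs c := by
  intro l m x hl hm hor hx
  rcases hor with ⟨hr, hj⟩ | ⟨hr, hj⟩
  · obtain ⟨a, b, ha, hb, hs, hg⟩ := S.rot_soft (c := c) (Cd := 1) hM hc0 hc hsg (by linarith) hR cs
      zero_le_one hc1 (by linarith) hm hr hj x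
    refine ⟨a, b, hb, hs, ?_⟩
    rw [one_mul] at hg
    exact hg
  · have h1 := S.re_gp (c := c) (cs := cs) hM hc0 hc hdc hk (by linarith) hr hm hj x
    have hM0 : 0 ≤ S.M := by linarith
    have u1 := S.fldL_UI hM0 hc0 hc l m
    have u2 := S.fldL_UI hM0 hc0 hc l (m + 1)
    refine ⟨∫ z, |S.fe l x (m + 1) z - S.fe l x m z| ∂(stdGaussian (L S.f l)ᗮ), 0, le_rfl,
      H174.Soft.of_L1 (S.fe_UI hM0 hc0 hc l x m) (S.fe_UI hM0 hc0 hc l x (m + 1)), ?_⟩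
    rw [add_zero]
    refine le_trans (le_of_eq ?_) h1
    congr 1
    have hm' : Measurable fun y => |S.fldL l (m + 1) y - S.fldL l m y| :=
      measurable_abs.comp (u2.meas.sub u1.meas)
    exact (H606.fr_eq_sl (L S.f l) hm' x).symm

/-- outer rotations -/
theorem outOut_of {c0 : ℝ} (hM : 0 ≤ S.M) (h0 : 0 ≤ c0) (hc0 : (S.M + 1) * S.cp.b0 ≤ c0)
    (hc : c0 ≤ 1 / 16) (hdc : 16 * (S.d : ℝ) * c0 ≤ 1) : S.OutOut 2 := by
  intro l m x hl hm hr hj hx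
  have h1 := S.out_slice hM hc0 h0 hc (l := l) (m := m) (Or.inr ⟨hr, hj⟩) hl.le x
  refine h1.trans (mul_le_mul_of_nonneg_right ?_ ENNReal.toReal_nonneg)
  exact H654.sg_pow_le h0 hdc (by omega) hc

/-- the numerical hypotheses of the labelwise inputs -/
structure LabNum (cs c Amin c0 : ℝ) : Prop where
  M2 : 2 ≤ S.M
  R0 : 0 ≤ S.R
  N0 : 0 < S.N
  N1 : S.N ≤ 1
  δ0 : 0 < S.δ
  δ1 : S.δ ≤ 1 / 10
  c00 : 0 ≤ c0
  hc0 : (S.M + 1) * S.cp.b0 ≤ c0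
  hc : c0 ≤ 1 / 16
  hd : 2 * (S.d : ℝ) * c0 ≤ 1 / 10 ^ 11
  hk : 2 * S.cp.kap * (S.M + 1) ≤ 1 / 10 ^ 11
  hb1 : S.cp.b0 ≤ 1
  Am0 : 0 < Amin
  Am : ∀ l x, l < S.lf → x ∉ S.cp.Z l → Amin ≤ S.cp.A l x
  NA : S.N ^ 2 * (1 - Real.log (9 / 10 * Amin)) * (3 * 10 ^ 8 * (S.d + 1)) ≤ 1
  hcs : 8 ≤ cs
  hc1 : 144 * (S.M + 1) ≤ c
  hc2 : (20 * S.R + 16) * (S.M + 1) ≤ c

variable {S}

lemma LabNum.hdc {cs c Amin c0 : ℝ} (H : S.LabNum cs c Amin c0) : 16 * (S.d : ℝ) * c0 ≤ 1 := by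
  have := H.hd
  norm_num at this ⊢
  linarith

lemma LabNum.hk6 {cs c Amin c0 : ℝ} (H : S.LabNum cs c Amin c0) : S.cp.kap ≤ 1 / 6 := by
  have h1 := H.hk
  have h2 := H.M2
  have h3 := S.cp.kap_pos
  norm_num at h1 ⊢
  nlinarith

theorem LabNum.labHyp {cs c Amin c0 : ℝ} (H : S.LabNum cs c Amin c0) :
    S.LabHyp cs c 2 Amin c0 := by
  have hM := H.M2
  have hk6 := H.hk6
  have hsg : sg c0 ^ S.d ≤ 2 := H654.sg_pow_le H.c00 H.hdc le_rfl H.hc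
  exact
    { st := S.starOut_of H.M2 H.c00 H.hc0 H.hc (by linarith) H.δ0 H.δ1 hsg H.hcs c
      inn := S.inOut_of (by linarith) H.hc0 H.hc H.hdc hk6 H.R0 hsg cs H.hc1 H.hc2
      out := S.outOut_of (by linarith) H.c00 H.hc0 H.hc H.hdc
      C1 := by norm_num
      M2 := H.M2
      R0 := H.R0
      N0 := H.N0
      N1 := H.N1
      δ1 := by linarith [H.δ1]
      c00 := H.c00
      hc0 := H.hc0
      hc := H.hc
      hd := H.hd
      hk := H.hk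
      hk' := by linarith
      hb1 := H.hb1
      Am0 := H.Am0
      Am := H.Am
      NA := H.NA }

/-- **(LBL)** for the system -/
theorem LabNum.lbl {cs c Amin c0 cL : ℝ} (H : S.LabNum cs c Amin c0)
    (hcL : cL * (4 * 10 ^ 15 * (S.d + 1) ^ 5 * (1 + S.R) ^ 2) ≤ S.N) : S.LBL cL cs c :=
  H.labHyp.LBL (by
    refine le_trans (le_of_eq ?_) hcL
    ring)

/-- **(LBI)** for the system -/
theorem LabNum.lbi {cs c Amin c0 : ℝ} (H : S.LabNum cs c Amin c0) : S.LBI cs c :=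
  H.labHyp.LBI (by have := H.hc1; have := H.M2; linarith)

end Vale.Agent.P262.M1.Sys
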