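import Vale.Agent.P262.H852.LblE
import Vale.Agent.P262.M1.Param2

/-!
# P262, milestone 1: (LBL), (LBI) for the box caps with the constants of `M1/Param2`
-/

set_option linter.all false

open MeasureTheory ProbabilityTheory Set
open scoped ENNReal RealInnerProductSpace
open Vale.Agent.P262.H118 (L Iv st en ONB K1 rotE ON tau)
open Vale.Agent.P262.H924

namespace Vale.Agent.P262.M1

variable {E : Type*} [NormedAddCommGroup E] [InnerProductSpace ℝ E] [FiniteDimensional ℝ E]
  [MeasurableSpace E] [BorelSpace E]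

lemma SmallN.hk11 {K : ℝ} {n d : ℕ} {h A0 k0 b0 R M N : ℝ} (S : SmallN K n d h A0 k0 b0 R M N)
    (hn : 4 ≤ n) (hK : 10 ^ 20 * Real.exp (2 ^ 11) ≤ K) :
    2 * kapB k0 b0 h * (M + 1) ≤ 1 / 10 ^ 11 := by
  have h1 := S.small (A := 10 ^ 20 * Real.exp (2 ^ 11)) (m := 3) (by positivity) hK (by omega)
  have h2 := S.kapB_le'
  have hQ := S.one_le_Q
  have hQd := S.Q_ge
  have hk0 := S.k0_pos
  have h3 : M + 1 ≤ 1025 * SmallN.Q R d := by
    rw [S.hM]; linarith
  have h4 : 0 ≤ M + 1 := by linarith [S.M_ge]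
  have e1 : (10:ℝ) ^ 19 ≤ Real.exp (2 ^ 11) := by
    have e2 : Real.exp (2 ^ 11) = Real.exp 256 ^ 8 := by
      rw [← Real.exp_nat_mul]; norm_num
    have e3 : (257:ℝ) ≤ Real.exp 256 := by
      have := Real.add_one_le_exp (256:ℝ); linarith
    rw [e2]
    calc (10:ℝ) ^ 19 ≤ 257 ^ 8 := by norm_num
      _ ≤ _ := pow_le_pow_left₀ (by norm_num) e3 8
  have h5 : 2 * kapB k0 b0 h * (M + 1)
      ≤ 2 * (4 * 10 ^ 16 * SmallN.Q R d ^ 2 * k0) * (1025 * SmallN.Q R d) := by
    have : 2 * kapB k0 b0 h * (M + 1) ≤ 2 * (4 * 10 ^ 16 * SmallN.Q R d ^ 2 * k0) * (M + 1) :=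
      mul_le_mul_of_nonneg_right (by linarith) h4
    refine this.trans (mul_le_mul_of_nonneg_left h3 (by positivity))
  have h6 : 0 ≤ SmallN.Q R d ^ 3 * k0 := by positivity
  have h7 : 10 ^ 20 * 10 ^ 19 * (SmallN.Q R d ^ 3 * k0)
      ≤ 10 ^ 20 * Real.exp (2 ^ 11) * (SmallN.Q R d ^ 3 * k0) :=
    mul_le_mul_of_nonneg_right (mul_le_mul_of_nonneg_left e1 (by norm_num)) h6
  have h8 : 2 * (4 * 10 ^ 16 * SmallN.Q R d ^ 2 * k0) * (1025 * SmallN.Q R d)
      = 8200 * 10 ^ 16 * (SmallN.Q R d ^ 3 * k0) := by ring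
  have h9 : 10 ^ 20 * Real.exp (2 ^ 11) * (SmallN.Q R d ^ 3 * k0)
      = 10 ^ 20 * Real.exp (2 ^ 11) * SmallN.Q R d ^ 3 * k0 := by ring
  rw [h8] at h5
  rw [h9] at h7
  refine h5.trans ?_
  have h10 := h7.trans h1
  norm_num at h10 ⊢
  linarith

section

variable (S : Sys E) {K : ℝ} {n : ℕ} {h A0 k0 b0 : ℝ} (P : Par S.d h A0 k0 b0 S.R)
  (hcp : S.cp = capsBox S.hf P) (hS : SmallN K n S.d h A0 k0 b0 S.R S.M S.N)
  (hn : 4 ≤ n) (hK : 10 ^ 20 * Real.exp (2 ^ 11) ≤ K) (hδ : S.δ = 1 / 19200)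

include hcp hS hn hK hδ

theorem labNum_box {cs c : ℝ} (hcs : 8 ≤ cs) (hc1 : 144 * (S.M + 1) ≤ c)
    (hc2 : (20 * S.R + 16) * (S.M + 1) ≤ c) :
    S.LabNum cs c (A0 * k0 ^ S.d) ((S.M + 1) * b0) := by
  have hA := P.hA
  have hk := P.hk
  have hk1 := P.hk1
  have hR := hS.hR2
  have hN := hS.N_pos
  have hb := cp_b0 S P hcp
  have hkap := cp_kap S P hcp
  exact
    { M2 := by linarith [hS.M_ge]
      R0 := hS.hR0
      N0 := hN
      N1 := by linarith [hS.N_le]
      δ0 := by rw [hδ]; norm_num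
      δ1 := by rw [hδ]; norm_num
      c00 := hS.c0_nonneg
      hc0 := by rw [hb]
      hc := hS.c0_16
      hd := hS.hidden
      hk := by rw [hkap]; exact hS.hk11 hn hK
      hb1 := by rw [hb]; exact P.hb1
      Am0 := by positivity
      Am := by
        intro l x hl hx
        rw [cp_A S P hcp]
        unfold capR
        have h1 : k0 ^ S.d ≤ k0 ^ l := pow_le_pow_of_le_one hk.le hk1 (by have := S.lf_succ; omega)
        have h2 : 0 ≤ rr S.f h l x := by
          unfold rr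
          exact Finset.sum_nonneg fun k _ => sq_nonneg _
        have h3 : 1 ≤ Real.exp (rr S.f h l x / 8) := Real.one_le_exp (by positivity)
        calc A0 * k0 ^ S.d ≤ A0 * k0 ^ l := mul_le_mul_of_nonneg_left h1 hA.le
          _ ≤ A0 * k0 ^ l * Real.exp (rr S.f h l x / 8) := le_mul_of_one_le_right (by positivity) h3
      NA := by
        have h1 := P.one_sub_log_le (f := S.f) (le_refl S.d) (0 : E)
        have h0 : Real.exp (rr S.f h S.d (0:E) / 8) = 1 := by
          have : rr S.f h S.d (0:E) = 0 := by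
            unfold rr ex
            refine Finset.sum_eq_zero fun k _ => ?_
            rw [inner_zero_right, abs_zero, zero_sub, max_eq_right (by linarith [P.hh])]
            norm_num
          rw [this]; simp
        have h2 : capR A0 k0 S.f h S.d (0:E) = A0 * k0 ^ S.d := by
          unfold capR
          rw [h0, mul_one]
        rw [h2] at h1
        have h3 : Real.log (9 / 10 * (A0 * k0 ^ S.d))
            = Real.log (9 / 10) + Real.log (A0 * k0 ^ S.d) :=
          Real.log_mul (by norm_num) (by positivity)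
        have h4 : -1 ≤ Real.log (9 / 10) := by
          have h5 : Real.log (1 / 2) ≤ Real.log (9 / 10) := Real.log_le_log (by norm_num) (by norm_num)
          have h6 : Real.log (1 / 2) = - Real.log 2 := by rw [one_div, Real.log_inv]
          have h7 := Real.log_two_lt_d9
          linarith
        have h7 : 1 - Real.log (9 / 10 * (A0 * k0 ^ S.d)) ≤ (1 + S.R) ^ 2 := by
          rw [h3]; nlinarith
        have hd0 : (0:ℝ) ≤ S.d := Nat.cast_nonneg _
        calc S.N ^ 2 * (1 - Real.log (9 / 10 * (A0 * k0 ^ S.d))) * (3 * 10 ^ 8 * (S.d + 1))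
            ≤ S.N ^ 2 * (1 + S.R) ^ 2 * (3 * 10 ^ 8 * (S.d + 1)) := by
              refine mul_le_mul_of_nonneg_right (mul_le_mul_of_nonneg_left h7 (sq_nonneg _))
                (by positivity)
          _ ≤ 1 := by
              rw [hS.hN]
              have hd1 : 0 < (S.d : ℝ) + 1 := by positivity
              have hR1 : 0 < 1 + S.R := by linarith
              have e : (1 / 10 ^ 6 / (((S.d : ℝ) + 1) * (1 + S.R) ^ 2)) ^ 2 * (1 + S.R) ^ 2
                  * (3 * 10 ^ 8 * ((S.d : ℝ) + 1))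
                  = 3 * 10 ^ 8 / 10 ^ 12 * (1 / (((S.d : ℝ) + 1) * (1 + S.R) ^ 2)) := by
                field_simp
              rw [e]
              have h8 : 1 / (((S.d : ℝ) + 1) * (1 + S.R) ^ 2) ≤ 1 := by
                rw [div_le_one (by positivity)]
                have : 1 ≤ (1 + S.R) ^ 2 := one_le_pow₀ (by linarith)
                nlinarith
              have h9 : 0 ≤ 1 / (((S.d : ℝ) + 1) * (1 + S.R) ^ 2) := by positivity
              nlinarith
      hcs := hcs
      hc1 := hc1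
      hc2 := hc2 }

/-- **(LBL)** for the box caps -/
theorem lbl_box {cs c : ℝ} (hcs : 8 ≤ cs) (hc1 : 144 * (S.M + 1) ≤ c)
    (hc2 : (20 * S.R + 16) * (S.M + 1) ≤ c) :
    S.LBL (S.N / (4 * 10 ^ 15 * (S.d + 1) ^ 5 * (1 + S.R) ^ 2)) cs c := by
  refine (labNum_box S P hcp hS hn hK hδ hcs hc1 hc2).lbl ?_
  have hR := hS.hR2
  have hd0 : (0:ℝ) ≤ S.d := Nat.cast_nonneg _
  rw [div_mul_cancel₀]
  positivity

/-- **(LBI)** for the box caps -/
theorem lbi_box {cs c : ℝ} (hcs : 8 ≤ cs) (hc1 : 144 * (S.M + 1) ≤ c)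
    (hc2 : (20 * S.R + 16) * (S.M + 1) ≤ c) : S.LBI cs c :=
  (labNum_box S P hcp hS hn hK hδ hcs hc1 hc2).lbi

end

end Vale.Agent.P262.M1
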