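import Vale.Agent.P262.H852.Supp3

/-!
# P262, milestone 1: the third moment in the support bound
-/

set_option linter.unusedSectionVars false
set_option linter.unusedVariables false

namespace Vale.Agent.P262.H852

open MeasureTheory ProbabilityTheory Set Filter Topology Module
open scoped RealInnerProductSpace ENNReal
open Vale.Agent.P262.H847 Vale.Agent.P262.H912 Vale.Agent.P262.H941 Vale.Agent.P262.H174

variable {E : Type*} [NormedAddCommGroup E] [InnerProductSpace ℝ E] [FiniteDimensional ℝ E]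
  [MeasurableSpace E] [BorelSpace E]

lemma int_abs_inner_cube {b : E} (hb : ‖b‖ = 1) :
    ∫ g, |⟪g, b⟫| ^ 3 ∂(stdGaussian E) ≤ 67 := by
  have h1 : UI (fun _ : E => (1:ℝ)) := ⟨measurable_const, fun _ => zero_le_one, fun _ => le_rfl⟩
  have h2 := cube_bound h1 (w := b) (N := 1) (T := 1) hb.le le_rfl
  simp only [one_mul, one_pow, mul_one, integral_const, probReal_univ, smul_eq_mul] at h2
  have h3 : Real.exp (-(1 / 2)) ≤ 61 / 100 := by
    have h4 : 1 + (1/2 : ℝ) + (1/2)^2/2 + (1/2)^3/6 ≤ Real.exp (1 / 2) := by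
      have := Real.sum_le_exp_of_nonneg (x := 1/2) (by norm_num) 4
      simp only [Finset.sum_range_succ, Finset.sum_range_zero, Nat.factorial] at this
      norm_num at this ⊢
      linarith
    rw [Real.exp_neg]
    rw [inv_le_comm₀ (Real.exp_pos _) (by norm_num)]
    refine le_trans ?_ h4
    norm_num
  linarith

lemma int_norm_cube : ∫ g : E, ‖g‖ ^ 3 ∂(stdGaussian E) ≤ 67 * (finrank ℝ E : ℝ) ^ 3 := by
  set b := stdOrthonormalBasis ℝ E with hb
  have hd0 : (0:ℝ) ≤ (finrank ℝ E : ℝ) := Nat.cast_nonneg _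
  have h1 : ∀ g : E, ‖g‖ ≤ ∑ k, |⟪g, b k⟫| := by
    intro g
    conv_lhs => rw [← b.sum_repr' g]
    refine (norm_sum_le _ _).trans (Finset.sum_le_sum fun k _ => ?_)
    rw [norm_smul, b.orthonormal.1 k, mul_one, Real.norm_eq_abs, real_inner_comm]
  have h2 : ∀ g : E, ‖g‖ ^ 3 ≤ (finrank ℝ E : ℝ) ^ 2 * ∑ k, |⟪g, b k⟫| ^ 3 := by
    intro g
    have h3 : ‖g‖ ^ 3 ≤ (∑ k, |⟪g, b k⟫|) ^ 3 := pow_le_pow_left₀ (norm_nonneg _) (h1 g) 3
    refine h3.trans ?_
    rcases Nat.eq_zero_or_pos (finrank ℝ E) with h0 | h0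
    · have h5 : (Finset.univ : Finset (Fin (finrank ℝ E))) = ∅ := by
        apply Finset.eq_empty_of_forall_notMem
        intro k
        have := k.2
        omega
      rw [h5]
      simp
    · have h4 := pow_sum_div_card_le_sum_pow (s := (Finset.univ : Finset (Fin (finrank ℝ E))))
        (f := fun k => |⟪g, b k⟫|) (fun k _ => abs_nonneg _) 2
      rw [Finset.card_univ, Fintype.card_fin, div_le_iff₀ (by positivity)] at h4
      calc (∑ k, |⟪g, b k⟫|) ^ 3 ≤ (∑ k, |⟪g, b k⟫| ^ 3) * (finrank ℝ E : ℝ) ^ 2 := h4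
        _ = _ := mul_comm _ _
  have hi : ∀ k, Integrable (fun g : E => |⟪g, b k⟫| ^ 3) (stdGaussian E) :=
    fun k => integrable_cube (b k)
  have h5 : ∫ g : E, ‖g‖ ^ 3 ∂(stdGaussian E)
      ≤ ∫ g : E, (finrank ℝ E : ℝ) ^ 2 * ∑ k, |⟪g, b k⟫| ^ 3 ∂(stdGaussian E) :=
    integral_mono integrable_norm_pow3 ((integrable_finsetSum _ fun k _ => hi k).const_mul _) h2
  refine h5.trans ?_
  rw [integral_const_mul, integral_finsetSum _ fun k _ => hi k]
  have h6 : ∑ k, ∫ g : E, |⟪g, b k⟫| ^ 3 ∂(stdGaussian E) ≤ ∑ _k : Fin (finrank ℝ E), (67:ℝ) :=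
    Finset.sum_le_sum fun k _ => int_abs_inner_cube (b.orthonormal.1 k)
  rw [Finset.sum_const, Finset.card_univ, Fintype.card_fin, nsmul_eq_mul] at h6
  calc (finrank ℝ E : ℝ) ^ 2 * ∑ k, ∫ g : E, |⟪g, b k⟫| ^ 3 ∂(stdGaussian E)
      ≤ (finrank ℝ E : ℝ) ^ 2 * ((finrank ℝ E : ℝ) * 67) :=
        mul_le_mul_of_nonneg_left h6 (by positivity)
    _ = 67 * (finrank ℝ E : ℝ) ^ 3 := by ring

/-- the third moment of the fibre coordinate against the third moment of the field -/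
theorem M3_le {e : E → ℝ} (he : UI e) {c s : ℝ} (hcs : c ^ 2 + s ^ 2 = 1)
    {X : ℝ} (hX : ∫ x, e x * ‖x‖ ^ 3 ∂(stdGaussian E) ≤ X) :
    M3 e c s ≤ 4 * X + 268 * (finrank ℝ E : ℝ) ^ 3 * ∫ x, e x ∂(stdGaussian E) := by
  have hi3' : Integrable (fun p : E × E => e (c • p.1 + s • p.2) * ‖p.2‖ ^ 3) (gg E) := by
    refine (integrable_norm_pow3.comp_snd _).mono' ?_ (Eventually.of_forall fun p => ?_)
    · exact ((UI.comp he (by fun_prop) : UI (fun p : E × E => e (c • p.1 + s • p.2))).meas.mul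
        (by fun_prop)).aestronglyMeasurable
    · rw [norm_mul, Real.norm_eq_abs, abs_of_nonneg (he.nonneg _), Real.norm_eq_abs,
        abs_of_nonneg (by positivity)]
      exact mul_le_of_le_one_left (by positivity) (he.le_one _)
  have h1 : M3 e c s = ∫ p, e (c • p.1 + s • p.2) * ‖p.2‖ ^ 3 ∂(gg E) := by
    unfold M3
    rw [integral_prod _ hi3']
  have hm : Measurable (fun p : E × E => e (c • p.1 + s • p.2) * ‖p.2‖ ^ 3) :=
    (UI.comp he (by fun_prop) : UI (fun p : E × E => e (c • p.1 + s • p.2))).meas.mul (by fun_prop)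
  have h2 : ∫ p, e (c • p.1 + s • p.2) * ‖p.2‖ ^ 3 ∂(gg E)
      = ∫ p, e p.1 * ‖s • p.1 - c • p.2‖ ^ 3 ∂(gg E) := by
    conv_lhs => rw [← map_rot (E := E) c s hcs]
    rw [integral_map (by fun_prop) hm.aestronglyMeasurable]
    congr 1
    funext p
    have e1 : c • (c • p.1 + s • p.2) + s • (s • p.1 - c • p.2) = p.1 := by
      rw [smul_add, smul_sub, smul_smul, smul_smul, smul_smul, smul_smul]
      have e2 : (c * c) • p.1 + (c * s) • p.2 + ((s * s) • p.1 - (s * c) • p.2)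
          = (c * c + s * s) • p.1 := by
        rw [mul_comm s c, add_smul]; abel
      rw [e2, show c * c + s * s = 1 by nlinarith, one_smul]
    simp only [e1]
  have hc1 : |c| ≤ 1 := by
    rw [← sq_le_one_iff_abs_le_one]; nlinarith
  have hs1 : |s| ≤ 1 := by
    rw [← sq_le_one_iff_abs_le_one]; nlinarith
  have h3 : ∀ p : E × E, e p.1 * ‖s • p.1 - c • p.2‖ ^ 3
      ≤ 4 * (e p.1 * ‖p.1‖ ^ 3) + 4 * (e p.1 * ‖p.2‖ ^ 3) := by
    intro p
    have h4 : ‖s • p.1 - c • p.2‖ ≤ ‖p.1‖ + ‖p.2‖ := by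
      refine (norm_sub_le _ _).trans ?_
      rw [norm_smul, norm_smul, Real.norm_eq_abs, Real.norm_eq_abs]
      have := norm_nonneg p.1
      have := norm_nonneg p.2
      nlinarith
    have h5 : ‖s • p.1 - c • p.2‖ ^ 3 ≤ (‖p.1‖ + ‖p.2‖) ^ 3 :=
      pow_le_pow_left₀ (norm_nonneg _) h4 3
    have h6 : (‖p.1‖ + ‖p.2‖) ^ 3 ≤ 4 * ‖p.1‖ ^ 3 + 4 * ‖p.2‖ ^ 3 := by
      have := norm_nonneg p.1
      have := norm_nonneg p.2
      nlinarith [mul_nonneg (add_nonneg (norm_nonneg p.1) (norm_nonneg p.2))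
        (sq_nonneg (‖p.1‖ - ‖p.2‖))]
    have h7 := mul_le_mul_of_nonneg_left (h5.trans h6) (he.nonneg p.1)
    linarith
  have hie : Integrable e (stdGaussian E) := he.integrable _
  have hie3 : Integrable (fun x => e x * ‖x‖ ^ 3) (stdGaussian E) := by
    refine integrable_norm_pow3.mono' (he.meas.mul (by fun_prop)).aestronglyMeasurable
      (Eventually.of_forall fun g => ?_)
    rw [norm_mul, Real.norm_eq_abs, abs_of_nonneg (he.nonneg g), Real.norm_eq_abs,
      abs_of_nonneg (by positivity)]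
    exact mul_le_of_le_one_left (by positivity) (he.le_one g)
  have hA : Integrable (fun p : E × E => e p.1 * ‖p.1‖ ^ 3) (gg E) := hie3.comp_fst _
  have hB : Integrable (fun p : E × E => e p.1 * ‖p.2‖ ^ 3) (gg E) :=
    hie.mul_prod integrable_norm_pow3
  have hL : Integrable (fun p : E × E => e p.1 * ‖s • p.1 - c • p.2‖ ^ 3) (gg E) := by
    refine ((hA.const_mul 4).add (hB.const_mul 4)).mono'
      ((he.meas.comp measurable_fst).mul (by fun_prop)).aestronglyMeasurable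
      (Eventually.of_forall fun p => ?_)
    rw [norm_mul, Real.norm_eq_abs, abs_of_nonneg (he.nonneg _), Real.norm_eq_abs,
      abs_of_nonneg (by positivity)]
    exact h3 p
  have h8 : ∫ p, e p.1 * ‖s • p.1 - c • p.2‖ ^ 3 ∂(gg E)
      ≤ ∫ p, (4 * (e p.1 * ‖p.1‖ ^ 3) + 4 * (e p.1 * ‖p.2‖ ^ 3)) ∂(gg E) :=
    integral_mono hL ((hA.const_mul 4).add (hB.const_mul 4)) h3
  have h9 : ∫ p, (4 * (e p.1 * ‖p.1‖ ^ 3) + 4 * (e p.1 * ‖p.2‖ ^ 3)) ∂(gg E)
      = 4 * ∫ x, e x * ‖x‖ ^ 3 ∂(stdGaussian E)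
        + 4 * ((∫ x, e x ∂(stdGaussian E)) * ∫ x, ‖x‖ ^ 3 ∂(stdGaussian E)) := by
    rw [integral_add (hA.const_mul 4) (hB.const_mul 4), integral_const_mul, integral_const_mul]
    congr 2
    · have := integral_prod_mul (μ := stdGaussian E) (ν := stdGaussian E)
        (fun x : E => e x * ‖x‖ ^ 3) (fun _ : E => (1:ℝ))
      simpa using this
    · exact integral_prod_mul (μ := stdGaussian E) (ν := stdGaussian E) e (fun x : E => ‖x‖ ^ 3)
  have h10 := int_norm_cube (E := E)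
  have h11 : 0 ≤ ∫ x, e x ∂(stdGaussian E) := integral_nonneg he.nonneg
  have h12 := mul_le_mul_of_nonneg_left h10 h11
  rw [h1, h2]
  refine h8.trans ?_
  rw [h9]
  nlinarith

end Vale.Agent.P262.H852
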