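import Vale.Agent.P262.H44.L2Sys
import Vale.Agent.P262.H654.CapS
import Vale.Agent.P262.M2.Param

/-!
# P262, milestone 2: the numerical hypotheses `LblN` of the labelwise block lemma from `Sm`
-/

set_option linter.all false

open MeasureTheory ProbabilityTheory Set
open scoped ENNReal RealInnerProductSpace

namespace Vale.Agent.P262.M2.Sys

open Real

variable {E : Type*} [NormedAddCommGroup E] [InnerProductSpace ℝ E] [FiniteDimensional ℝ E]
  [MeasurableSpace E] [BorelSpace E]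

lemma four_kp_eq (S : Sys E) : 4 * S.kp 1 * (S.M + 1) = 8 * S.kap / S.b0 := by
  have h1 := S.hM
  have h2 : 0 < S.b0 := S.hA0.trans_le S.hAb
  have h3 : (S.M + 1) ≠ 0 := by positivity
  unfold kp cc
  rw [pow_one]
  field_simp
  ring

/-- the choice of `J` and `c` -/
lemma exists_Jc {q : ℝ} (hq : 0 < q) (hq1 : q ≤ 1) :
    ∃ (c : ℝ) (J : ℕ), 0 < c ∧ c ≤ 1 / 8 ∧ 1500 * c * (J + 1) + 32 * (1 / 2) ^ J ≤ q / 300 := by
  obtain ⟨J, hJ⟩ := exists_pow_lt_of_lt_one (show (0 : ℝ) < q / (600 * 32) by positivity)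
    (show (1 / 2 : ℝ) < 1 by norm_num)
  have hJ0 : (0 : ℝ) ≤ J := Nat.cast_nonneg J
  refine ⟨q / (600 * 1500 * (J + 1)), J, by positivity, ?_, ?_⟩
  · rw [div_le_iff₀ (by positivity)]
    nlinarith
  · have h1 : 1500 * (q / (600 * 1500 * (J + 1))) * (J + 1) = q / 600 := by
      field_simp
      try ring
    rw [h1]
    have h2 : 32 * (1 / 2 : ℝ) ^ J ≤ q / 600 := by
      have := hJ.le
      rw [le_div_iff₀ (by norm_num)] at this
      linarith
    linarith

lemma sqrt_log40 : sqrt (1 - log (1 / 40)) ≤ 3 := by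
  rw [show (3 : ℝ) = sqrt 9 by rw [show (9 : ℝ) = 3 ^ 2 by norm_num, sqrt_sq (by norm_num)]]
  apply sqrt_le_sqrt
  rw [one_div, log_inv]
  have h1 : log 40 ≤ 8 := by
    rw [log_le_iff_le_exp (by norm_num)]
    have h2 := add_one_le_exp (1 : ℝ)
    have h3 : exp 8 = exp 1 ^ 8 := by rw [← exp_nat_mul]; norm_num
    rw [h3]
    calc (40 : ℝ) ≤ 2 ^ 8 := by norm_num
      _ ≤ exp 1 ^ 8 := by gcongr; linarith
  linarith

/-- **`LblN` from the smallness of the constants** -/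
theorem Sm.lblN : ∃ (K : ℝ) (n : ℕ) (CL : ℝ), 0 ≤ CL ∧ 1 ≤ K ∧
    ∀ {E : Type} [NormedAddCommGroup E] [InnerProductSpace ℝ E] [FiniteDimensional ℝ E]
      [MeasurableSpace E] [BorelSpace E] (S : Sys E) {Lam : ℝ}, 1 ≤ Lam → S.Sm K n Lam →
      ∃ (q c : ℝ) (J : ℕ), S.LblN q c (4 * S.kp 1 * (S.M + 1)) J ∧
        kL S.c0 q c J ≤ CL / S.c0 := by
  obtain ⟨q, hq⟩ : ∃ q : ℝ, q = exp (-1420) := ⟨_, rfl⟩
  have hq0 : 0 < q := by rw [hq]; exact exp_pos _
  have hq40 : q ≤ 1 / 40 := by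
    rw [hq, exp_neg, one_div]
    apply inv_anti₀ (by norm_num)
    have := add_one_le_exp (1420 : ℝ)
    linarith
  obtain ⟨c, J, hc0, hc1, hJ⟩ := exists_Jc hq0 (by linarith)
  obtain ⟨K, hK⟩ : ∃ K : ℝ, K = 2 * 10 ^ 9 + 3 / c + 64 * 10 ^ 10
      + 8 / ((q / 2000) ^ 2 * (1 / 40)) := ⟨_, rfl⟩
  have k1 : 0 < 3 / c := by positivity
  have k2 : 0 < 8 / ((q / 2000) ^ 2 * (1 / 40)) := by positivity
  have hK1 : 1 ≤ K := by rw [hK]; linarith
  refine ⟨K, 1, 64 * 10 ^ 15 + 320 * 2 ^ J / c + 4 / q, by positivity, hK1, ?_⟩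
  intro E _ _ _ _ _ S Lam hL h
  have hS0 := S.hc0
  have hb := h.b0_pos
  have hb1 := h.b0_le_one
  have hkap := S.hkap
  have hKc := h.c0
  have hc01 := h.c0_le_one
  refine ⟨q, c, J, ?_, ?_⟩
  · have e1 := four_kp_eq S
    have m1 : ∀ {X : ℝ}, 0 ≤ X → X ≤ K → X * (S.kap / S.b0) ≤ 1 := by
      intro X hX0 hX
      have := h.master (X := X * (1 / S.b0)) (s := 1) (a := 0) (b := 0) (c := 0) (d := 1) (e := 0)
        (by linarith) hL (Nat.zero_le _) (Nat.zero_le _) (Nat.zero_le _) le_rfl (Nat.zero_le _)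
        (by norm_num) (by
          simp only [pow_zero, pow_one, one_mul, mul_one]
          have := h.one_le_inv_b0
          gcongr)
      rw [rpow_one] at this
      calc X * (S.kap / S.b0) = X * (1 / S.b0) * S.kap := by ring
        _ ≤ 1 := this
    have m0 : 0 ≤ S.kap / S.b0 := by positivity
    refine ⟨?_, ?_, ?_, hq40, hc0, hc1, hJ, ?_, ?_, ?_, ?_⟩
    · rw [h.ρ]; norm_num
    · rw [le_div_iff₀ (by norm_num)]
      have : S.c0 * (2 * 10 ^ 9) ≤ K * S.c0 := by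
        rw [mul_comm]
        refine mul_le_mul_of_nonneg_right ?_ hS0.le
        rw [hK]; linarith
      linarith
    · rw [h.q0, hq]
    · have h3 : S.c0 * sqrt (1 - log (1 / 40)) ≤ S.c0 * 3 :=
        mul_le_mul_of_nonneg_left sqrt_log40 hS0.le
      have h4 : 3 / c * S.c0 ≤ 1 := by
        refine le_trans (mul_le_mul_of_nonneg_right ?_ hS0.le) hKc
        rw [hK]; linarith
      have h5 : S.c0 * 3 ≤ c := by
        rw [div_mul_eq_mul_div, div_le_iff₀ hc0] at h4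
        linarith
      exact h3.trans h5
    · rw [e1]; positivity
    · rw [e1, le_div_iff₀ (by norm_num)]
      have := m1 (X := 64 * 10 ^ 10) (by norm_num) (by rw [hK]; linarith)
      calc 8 * S.kap / S.b0 * (8 * 10 ^ 10) = 64 * 10 ^ 10 * (S.kap / S.b0) := by ring
        _ ≤ 1 := this
    · have h6 := m1 (X := 8 / ((q / 2000) ^ 2 * (1 / 40))) k2.le (by rw [hK]; linarith)
      rw [e1]
      have h7 : 8 * S.kap / S.b0 ≤ (q / 2000) ^ 2 * (1 / 40) := by
        rw [div_mul_eq_mul_div, div_le_iff₀ (by positivity)] at h6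
        calc 8 * S.kap / S.b0 = 8 * (S.kap / S.b0) := by ring
          _ ≤ _ := by linarith
      calc 8 * S.kap / S.b0 * S.b0 ≤ 8 * S.kap / S.b0 * 1 :=
            mul_le_mul_of_nonneg_left hb1 (by positivity)
        _ ≤ _ := by rw [mul_one]; exact h7
  · unfold kL
    rw [add_div, add_div]
    have e2 : 320 * 2 ^ J / (c * S.c0) = 320 * 2 ^ J / c / S.c0 := by
      rw [div_div]
    have e3 : 4 / q ≤ 4 / q / S.c0 := by
      rw [le_div_iff₀ hS0]
      have : 0 ≤ 4 / q := by positivity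
      nlinarith
    rw [e2]
    linarith

end Vale.Agent.P262.M2.Sys
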