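import Vale.Agent.P262.H274.D9b

/-!
# P262, milestone 1, block LAB: one dimensional frames and change of time
-/

set_option linter.unusedSectionVars false
set_option linter.unusedVariables false

namespace Vale.Agent.P262.H852

open Set Metric RealInnerProductSpace Module
open Vale.Agent.P262.H274 (Slow SlowEx norm_sub_starProjection_le norm_proj_path_le)

variable {G : Type*} [NormedAddCommGroup G] [InnerProductSpace ℝ G] [FiniteDimensional ℝ G]

lemma norm_proj_line_le {V : Submodule ℝ G} {θ : G} (hθ : θ ∈ V) (x : G) :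
    ‖(ℝ ∙ θ).starProjection x‖ ≤ ‖V.starProjection x‖ := by
  have hle : (ℝ ∙ θ) ≤ V := (Submodule.span_singleton_le_iff_mem _ _).2 hθ
  have h1 : (ℝ ∙ θ).starProjection x = (ℝ ∙ θ).starProjection (V.starProjection x) := by
    have h2 : (ℝ ∙ θ).starProjection (x - V.starProjection x) = 0 := by
      rw [Submodule.starProjection_apply_eq_zero_iff]
      exact Submodule.orthogonal_le hle (V.sub_starProjection_mem_orthogonal x)
    rw [map_sub, sub_eq_zero] at h2
    exact h2
  rw [h1]
  exact (ℝ ∙ θ).norm_starProjection_apply_le _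

/-- one step of a line inside a moving space -/
lemma line_step (V V' : Submodule ℝ G) (hV' : 1 ≤ finrank ℝ V') {θ : G} (hθ : θ ∈ V)
    (h1 : ‖θ‖ = 1) : ∃ θ' : G, (θ' ∈ V' ∧ ‖θ'‖ = 1) ∧
      ‖(ℝ ∙ θ').starProjection - (ℝ ∙ θ).starProjection‖
        ≤ 2 * ‖V'.starProjection - V.starProjection‖ := by
  set r := ‖V'.starProjection - V.starProjection‖ with hr
  have hr0 : 0 ≤ r := norm_nonneg _
  have hVne : V' ≠ ⊥ := by rintro rfl; simp at hV'
  obtain ⟨x0, hx0, hx0n⟩ := Submodule.exists_mem_ne_zero_of_ne_bot hVne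
  have hx0p : 0 < ‖x0‖ := norm_pos_iff.2 hx0n
  set w := V'.starProjection θ with hw
  have hwV : w ∈ V' := V'.starProjection_apply_mem θ
  have hd : ‖θ - w‖ ≤ r := by
    have e1 : θ - w = -((V'.starProjection - V.starProjection) θ) := by
      rw [sub_apply, (Submodule.starProjection_eq_self_iff).2 hθ, ← hw]; abel
    rw [e1, norm_neg]
    calc _ ≤ ‖V'.starProjection - V.starProjection‖ * ‖θ‖ := ContinuousLinearMap.le_opNorm _ _
      _ = r := by rw [h1, mul_one]
  by_cases hw0 : w = 0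
  · refine ⟨(‖x0‖⁻¹ : ℝ) • x0, ⟨V'.smul_mem _ hx0, ?_⟩, ?_⟩
    · rw [norm_smul, norm_inv, norm_norm, inv_mul_cancel₀ hx0p.ne']
    · have h2 : 1 ≤ r := by rw [hw0, sub_zero, h1] at hd; exact hd
      refine (norm_sub_le _ _).trans ?_
      have h3 := (ℝ ∙ (‖x0‖⁻¹ : ℝ) • x0).starProjection_norm_le
      have h4 := (ℝ ∙ θ).starProjection_norm_le
      linarith
  · have hwp : 0 < ‖w‖ := norm_pos_iff.2 hw0
    refine ⟨(‖w‖⁻¹ : ℝ) • w, ⟨V'.smul_mem _ hwV, ?_⟩, ?_⟩
    · rw [norm_smul, norm_inv, norm_norm, inv_mul_cancel₀ hwp.ne']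
    · have hspan : (ℝ ∙ (‖w‖⁻¹ : ℝ) • w) = (ℝ ∙ w) :=
        Submodule.span_singleton_smul_eq (IsUnit.mk0 _ (inv_ne_zero hwp.ne')) w
      refine norm_sub_starProjection_le _ _ hr0 ?_ ?_
      · intro y hy
        obtain ⟨c, rfl⟩ := Submodule.mem_span_singleton.1 hy
        refine ⟨c • w, ?_, ?_⟩
        · rw [hspan]
          exact Submodule.smul_mem _ _ (Submodule.mem_span_singleton_self w)
        rw [← smul_sub, norm_smul, norm_smul, h1, mul_one, mul_comm]
        exact mul_le_mul_of_nonneg_right hd (norm_nonneg _)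
      · intro y hy
        rw [hspan] at hy
        obtain ⟨c, rfl⟩ := Submodule.mem_span_singleton.1 hy
        refine ⟨c • (‖w‖ ^ 2 • θ), Submodule.smul_mem _ _ (Submodule.smul_mem _ _
          (Submodule.mem_span_singleton_self θ)), ?_⟩
        rw [← smul_sub, norm_smul, norm_smul]
        have hin : ⟪w, θ⟫ = ‖w‖ ^ 2 := by
          rw [hw, ← real_inner_self_eq_norm_sq, Submodule.inner_starProjection_left_eq_right,
            Submodule.inner_starProjection_left_eq_right,
            (Submodule.starProjection_eq_self_iff).2 (V'.starProjection_apply_mem θ)]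
        have h5 : ‖w - ‖w‖ ^ 2 • θ‖ ^ 2 = ‖w‖ ^ 2 * ‖θ - w‖ ^ 2 := by
          rw [@norm_sub_sq_real, @norm_sub_sq_real, real_inner_smul_right, hin, norm_smul, h1,
            real_inner_comm, hin, Real.norm_eq_abs, abs_of_nonneg (by positivity)]
          ring
        have h6 : ‖w - ‖w‖ ^ 2 • θ‖ = ‖w‖ * ‖θ - w‖ := by
          rw [← mul_pow] at h5
          exact (pow_left_inj₀ (norm_nonneg _) (by positivity) two_ne_zero).1 h5
        rw [h6]
        calc ‖c‖ * (‖w‖ * ‖θ - w‖) ≤ ‖c‖ * (‖w‖ * r) := by gcongr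
          _ = r * (‖c‖ * ‖w‖) := by ring

/-- a slow interval is exactly `1`-slow, with a factor two in the speed -/
theorem slowEx_one_of_slow {w : ℕ → G} {N : ℝ} {a b : ℕ} (h : Slow w (N / 2) 1 a b) :
    SlowEx w N 1 a b := by
  obtain ⟨j, hj, V, hV, hs⟩ := h
  have step : ∀ t θ, (θ ∈ V t ∧ ‖θ‖ = 1) → ∃ θ', (θ' ∈ V (t + 1) ∧ ‖θ'‖ = 1) ∧
      ‖(ℝ ∙ θ').starProjection - (ℝ ∙ θ).starProjection‖
        ≤ 2 * ‖(V (t + 1)).starProjection - (V t).starProjection‖ := fun t θ hθ =>
    line_step _ _ (by rw [hV]; exact hj) hθ.1 hθ.2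
  choose! S hS1 hS2 using step
  have hVne : V 0 ≠ ⊥ := by
    intro h0
    have := hV 0
    rw [h0, finrank_bot] at this
    omega
  obtain ⟨x0, hx0, hx0n⟩ := Submodule.exists_mem_ne_zero_of_ne_bot hVne
  have hx0p : 0 < ‖x0‖ := norm_pos_iff.2 hx0n
  let θ : ℕ → G := fun t => Nat.rec ((‖x0‖⁻¹ : ℝ) • x0) (fun t θ => S t θ) t
  have hθs : ∀ t, θ (t + 1) = S t (θ t) := fun t => rfl
  have hθ : ∀ t, θ t ∈ V t ∧ ‖θ t‖ = 1 := by
    intro t
    induction t with
    | zero =>
      refine ⟨(V 0).smul_mem _ hx0, ?_⟩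
      change ‖(‖x0‖⁻¹ : ℝ) • x0‖ = 1
      rw [norm_smul, norm_inv, norm_norm, inv_mul_cancel₀ hx0p.ne']
    | succ t ih => rw [hθs]; exact hS1 t _ ih
  let W : ℕ → Submodule ℝ G := fun t => Submodule.span ℝ {θ t}
  refine ⟨W, fun t => finrank_span_singleton (by
    intro h0
    have := (hθ t).2
    rw [h0, norm_zero] at this
    norm_num at this), ?_⟩
  refine le_trans (Finset.sum_le_sum (fun t _ => ?_)) (le_trans (le_of_eq
    (Finset.mul_sum (Finset.Ico a b) (fun t => ‖(V t).starProjection (w t)‖ +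
      ‖(V (t + 1)).starProjection - (V t).starProjection‖) 2).symm) (by linarith))
  have h1 := norm_proj_line_le (hθ t).1 (w t)
  have h2 := hS2 t (θ t) (hθ t)
  rw [← hθs] at h2
  have h3 := norm_nonneg ((V t).starProjection (w t))
  refine (add_le_add h1 h2).trans ?_
  linarith

/-- **change of time**: `n` strictly increasing on `[s, e]`, `uu (n t) = u t`. -/
theorem SlowEx.time {u uu : ℕ → G} {n : ℕ → ℕ} {N : ℝ} {k s e : ℕ} (hse : s ≤ e)
    (hn : ∀ t, s ≤ t → t < e → n t < n (t + 1)) (huu : ∀ t, s ≤ t → t < e → uu (n t) = u t)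
    (h : SlowEx uu N k (n s) (n e)) : SlowEx u N k s e := by
  obtain ⟨V, hV, hsum⟩ := h
  refine ⟨fun t => V (n t), fun t => hV _, le_trans ?_ hsum⟩
  clear hsum
  induction e, hse using Nat.le_induction with
  | base => simp
  | succ e hse ih =>
    have h1 := ih (fun t h1 h2 => hn t h1 (by omega)) (fun t h1 h2 => huu t h1 (by omega))
    have hmono : ∀ j, s ≤ j → j ≤ e → n s ≤ n j := by
      intro j hj
      induction j, hj using Nat.le_induction with
      | base => intro _; exact le_rfl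
      | succ j hj ih2 => intro hje; exact (ih2 (by omega)).trans (hn j hj (by omega)).le
    have h2 := hn e hse (by omega)
    rw [Finset.sum_Ico_succ_top hse, ← Finset.sum_Ico_consecutive _ (hmono e hse le_rfl) h2.le]
    refine add_le_add h1 ?_
    rw [Finset.sum_add_distrib]
    refine add_le_add ?_ (norm_proj_path_le V h2.le)
    rw [← huu e hse (by omega)]
    exact Finset.single_le_sum (f := fun m => ‖(V m).starProjection (uu m)‖)
      (fun m _ => norm_nonneg _) (Finset.mem_Ico.mpr ⟨le_rfl, h2⟩)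

/-- **the form used**: not exactly `1`-slow in the time of the stars gives not slow in elementary
time, up to any state `M` after the last star. -/
theorem not_slow_elem {u uu : ℕ → G} {n : ℕ → ℕ} {N : ℝ} {s e M : ℕ} (hse : s < e)
    (hn : ∀ t, s ≤ t → t + 1 < e → n t < n (t + 1)) (hM : n (e - 1) < M)
    (huu : ∀ t, s ≤ t → t < e → uu (n t) = u t) (h : ¬ SlowEx u N 1 s e) :
    ¬ Slow uu (N / 2) 1 (n s) M := by
  intro hS
  have h1 := slowEx_one_of_slow hS
  apply h
  refine SlowEx.time (n := fun t => if t < e then n t else M) (uu := uu) hse.le ?_ ?_ ?_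
  · intro t h2 h3
    by_cases h4 : t + 1 < e
    · simp only [if_pos h3, if_pos h4]; exact hn t h2 h4
    · have h5 : t = e - 1 := by omega
      simp only [if_pos h3, if_neg h4]
      rw [h5]; exact hM
  · intro t h2 h3
    simp only [if_pos h3]
    exact huu t h2 h3
  · simp only [if_pos hse, if_neg (lt_irrefl e)]
    exact h1

end Vale.Agent.P262.H852
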