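import Vale.Agent.P262.H852.PathA
import Vale.Agent.P262.H274.G2
import Vale.Agent.P262.H274.G9
import Vale.Agent.P262.H967.Lossy
import Vale.Agent.P262.H174.Soft5

/-!
# P262, milestone 1, block LAB: the gain of a not slow interval in elementary time

Fields with intermediate fields (at which the flux is taken) and soft changes.
-/

set_option linter.unusedSectionVars false
set_option linter.unusedVariables false

namespace Vale.Agent.P262.H852

open MeasureTheory ProbabilityTheory Set Filter Topology Module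
open scoped RealInnerProductSpace
open Vale.Agent.P262.H847 hiding gn
open Vale.Agent.P262.H912
open Vale.Agent.P262.H941
open Vale.Agent.P262.H274
open Vale.Agent.P262.H174 (Soft scaleBds_of_soft)
open Vale.Agent.P262.H967 (mom_lower)

variable {E : Type*} [NormedAddCommGroup E] [InnerProductSpace ℝ E] [FiniteDimensional ℝ E]
  [MeasurableSpace E] [BorelSpace E]

/-- A path of fields `fe t` with intermediate fields `fh t`. -/
structure EPath (u : ℕ → E) (fe fh : ℕ → E → ℝ) (F al be al' be' : ℕ → ℝ) (a b : ℕ) : Prop where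
  fe_UI : ∀ t, UI (fe t)
  fh_UI : ∀ t, UI (fh t)
  flux : ∀ t, a ≤ t → t < b → FluxLe (fh t) (u t) (F t)
  s1 : ∀ t, a ≤ t → t < b → Soft (fe t) (fh t) (al t) (be t)
  s2 : ∀ t, a ≤ t → t < b → Soft (fh t) (fe (t + 1)) (al' t) (be' t)
  be0 : ∀ t, a ≤ t → t < b → 0 ≤ be t
  be0' : ∀ t, a ≤ t → t < b → 0 ≤ be' t

namespace EPath

variable {u : ℕ → E} {fe fh : ℕ → E → ℝ} {F al be al' be' : ℕ → ℝ} {a b : ℕ}

/-- total charge of one move -/
def chg (F al be al' be' : ℕ → ℝ) (t : ℕ) : ℝ := F t + (al t + be t) + (al' t + be' t)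

lemma chg_nonneg (H : EPath u fe fh F al be al' be' a b) {t : ℕ} (h1 : a ≤ t) (h2 : t < b) :
    0 ≤ chg F al be al' be' t := by
  have e1 := (H.flux t h1 h2).nonneg
  have e2 := (H.s1 t h1 h2).nonneg
  have e3 := (H.s2 t h1 h2).nonneg
  have e4 := H.be0 t h1 h2
  have e5 := H.be0' t h1 h2
  unfold chg
  linarith

lemma gam_nonneg (H : EPath u fe fh F al be al' be' a b) :
    0 ≤ ∑ t ∈ Finset.Ico a b, chg F al be al' be' t :=
  Finset.sum_nonneg fun t ht => by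
    rw [Finset.mem_Ico] at ht
    exact H.chg_nonneg ht.1 ht.2

lemma scale_num (m : ℕ) : ∃ n0 : ℕ, 1 ≤ n0 ∧ 10 ^ 5 * (m : ℝ) ≤ 2 ^ n0 ∧
    (2:ℝ) ^ n0 ≤ 2 * 10 ^ 5 * (m + 1) ∧ (n0 : ℝ) ≤ 18 * (m + 1) := by
  obtain ⟨X, hX⟩ : ∃ X, X = 100000 * (m + 1) := ⟨_, rfl⟩
  have hX1 : 1 < X := by omega
  obtain ⟨n, hn⟩ : ∃ n, n = Nat.clog 2 X := ⟨_, rfl⟩
  have h1 : X ≤ 2 ^ n := by rw [hn]; exact Nat.le_pow_clog (by norm_num) X
  have h2 : 2 ^ n.pred < X := by rw [hn]; exact Nat.pow_pred_clog_lt_self (by norm_num) hX1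
  have h3 : 0 < n := by rw [hn]; exact Nat.clog_pos (by norm_num) hX1
  have hXr : (X : ℝ) = 10 ^ 5 * ((m:ℝ) + 1) := by rw [hX]; push_cast; ring
  have hm0 : (0:ℝ) ≤ m := Nat.cast_nonneg m
  refine ⟨n, h3, ?_, ?_, ?_⟩
  · have : (X : ℝ) ≤ 2 ^ n := by exact_mod_cast h1
    rw [hXr] at this
    linarith
  · obtain ⟨k, rfl⟩ : ∃ k, n = k + 1 := ⟨n - 1, by omega⟩
    have h4 : ((2:ℝ)) ^ k < X := by
      have : 2 ^ k < X := h2
      exact_mod_cast this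
    rw [hXr] at h4
    rw [pow_succ]
    linarith
  · have h4 : X ≤ 2 ^ (18 + m) := by
      have h5 : m + 1 ≤ 2 ^ m := Nat.lt_two_pow_self
      rw [hX, pow_add]
      exact Nat.mul_le_mul (by norm_num) h5
    have h5 : n ≤ 18 + m := by rw [hn]; exact Nat.clog_le_of_le_pow h4
    have : ((n : ℕ) : ℝ) ≤ ((18 + m : ℕ) : ℝ) := by exact_mod_cast h5
    push_cast at this
    linarith

/-- **healthy end state** -/
theorem gain_healthy (H : EPath u fe fh F al be al' be' a b) {N : ℝ} (hN0 : 0 < N) (hN1 : N ≤ 1)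
    (hab : a ≤ b) (hS : ¬ Slow u N 1 a b) {h : E → ℝ} (hh : UI h) {K : Set E} (hK : Convex ℝ K)
    (hKm : MeasurableSet K) (hfh : ∀ x, fe b x + h x = Kᶜ.indicator (fun _ => (1:ℝ)) x)
    (hD0 : 0 < (stdGaussian E).real Kᶜ) (hD1 : (stdGaussian E).real Kᶜ ≤ 7 / 8)
    (hhid : ∫ x, h x ∂(stdGaussian E) ≤ 1 / 10 ^ 10 * (stdGaussian E).real Kᶜ)
    (hNc : N ^ 2 * (1 - Real.log ((stdGaussian E).real Kᶜ)) * (3 * 10 ^ 8 * (finrank ℝ E + 1)) ≤ 1) :
    N * (stdGaussian E).real Kᶜ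
      ≤ 10 ^ 13 * (finrank ℝ E + 1) ^ 2 * ∑ t ∈ Finset.Ico a b, chg F al be al' be' t := by
  set m := finrank ℝ E with hm
  set D := (stdGaussian E).real Kᶜ with hD
  obtain ⟨n0, hn0, hn1, hn2, hn3⟩ := scale_num m
  have hn0' : (1:ℝ) ≤ n0 := by exact_mod_cast hn0
  have hm0 : (0:ℝ) ≤ m := Nat.cast_nonneg m
  have hℓ0 : 0 ≤ 1 - Real.log D := by
    have := Real.log_nonpos hD0.le (by linarith)
    linarith
  have hN2 : (N * √(1 - Real.log D)) ^ 2 = N ^ 2 * (1 - Real.log D) := by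
    rw [mul_pow, Real.sq_sqrt hℓ0]
  have hflux := fluxLe_dbl (e := fe) (eh := fh) (v := u) (F := F) (a := a) (b := b) H.flux
  have hsoft : ∀ s, 2 * a ≤ s → s < 2 * b →
      Soft (mix fe fh s) (mix fe fh (s + 1)) (mix al al' s) (mix be be' s) := by
    intro s hs1 hs2
    rcases Nat.even_or_odd' s with ⟨t, rfl | rfl⟩
    · rw [mix_even, mix_odd, mix_even, mix_even]
      exact H.s1 t (by omega) (by omega)
    · rw [show 2 * t + 1 + 1 = 2 * (t + 1) by ring, mix_odd, mix_even, mix_odd, mix_odd]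
      exact H.s2 t (by omega) (by omega)
  have hβ : ∀ s, 2 * a ≤ s → s < 2 * b → 0 ≤ mix be be' s := by
    intro s hs1 hs2
    rcases Nat.even_or_odd' s with ⟨t, rfl | rfl⟩
    · rw [mix_even]; exact H.be0 t (by omega) (by omega)
    · rw [mix_odd]; exact H.be0' t (by omega) (by omega)
  have hSB := scaleBds_of_soft (mix_UI H.fe_UI H.fh_UI) hN0.le hflux hsoft hβ
  set g : ℕ → ℝ := fun s => mix (fun _ => (0:ℝ)) F s + mix al al' s + mix be be' s with hg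
  have hΓ : Gam g (2 * a) (2 * b) = ∑ t ∈ Finset.Ico a b, chg F al be al' be' t := by
    unfold Gam
    rw [sum_Ico_double _ hab]
    refine Finset.sum_congr rfl fun t _ => ?_
    simp only [hg, mix_even, mix_odd, chg]
    ring
  obtain ⟨j, hj1, hj2, hj⟩ := gain_lossy_abs hN0 hN1 (by omega : 2 * a ≤ 2 * b)
    (not_slow_double hS) (f := mix fe fh (2 * b)) (mix_UI H.fe_UI H.fh_UI _) hh hK hKm
    (fun x => by rw [mix_even]; exact hfh x) hD0 hD1 hhid hn0 hn1 (by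
      rw [hN2]
      have h1 : 6 * 10 ^ 6 * (n0:ℝ) ≤ 3 * 10 ^ 8 * (m + 1) := by linarith
      exact (mul_le_mul_of_nonneg_left h1 (by positivity)).trans hNc)
    (B := fun s => 4 / s * Gam g (2 * a) (2 * b)) (by
      intro s hs hs1 lam hadm ε T hε hε1 hT
      exact hSB.flux (2 * a) (2 * b) le_rfl (by omega) le_rfl s hs hs1
        (ContinuousLinearMap.id ℝ E) lam (fun m δ hδ => hadm m δ hδ) ε T hε hε1 hT)
  rw [hΓ] at hj
  set Γ := ∑ t ∈ Finset.Ico a b, chg F al be al' be' t with hΓd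
  have hΓ0 : 0 ≤ Γ := H.gam_nonneg
  have hLD : D ≤ LL D := by
    rw [LL]
    have h1 := one_le_sqrt_ell hD0 (by linarith : D ≤ 1)
    nlinarith
  have hsc : 4 / sc j ≤ 8 * 10 ^ 5 * (m + 1) := by
    have h1 : 4 / sc j = 4 * 2 ^ j := by
      unfold sc
      rw [one_div, inv_pow, div_inv_eq_mul]
    rw [h1]
    have h2 : (2:ℝ) ^ j ≤ 2 ^ n0 := pow_le_pow_right₀ (by norm_num) hj2
    linarith
  have h1 : 1 / (3 * 10 ^ 5 * n0) * (N * LL D) ≤ 8 * 10 ^ 5 * (m + 1) * Γ :=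
    hj.trans (mul_le_mul_of_nonneg_right hsc hΓ0)
  have hn0p : (0:ℝ) < n0 := by linarith
  rw [one_div, inv_mul_le_iff₀ (by positivity)] at h1
  have h2 : N * D ≤ N * LL D := mul_le_mul_of_nonneg_left hLD hN0.le
  have h3 : 3 * 10 ^ 5 * (n0:ℝ) * (8 * 10 ^ 5 * (m + 1) * Γ)
      ≤ 3 * 10 ^ 5 * (18 * (m + 1)) * (8 * 10 ^ 5 * (m + 1) * Γ) := by
    apply mul_le_mul_of_nonneg_right _ (by positivity)
    linarith
  have h4 : 0 ≤ (m + 1 : ℝ) ^ 2 * Γ := by positivity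
  calc N * D ≤ 3 * 10 ^ 5 * (18 * (m + 1)) * (8 * 10 ^ 5 * (m + 1) * Γ) := by linarith
    _ = 3 * 10 ^ 5 * 18 * 8 * 10 ^ 5 * ((m + 1 : ℝ) ^ 2 * Γ) := by ring
    _ ≤ 10 ^ 13 * ((m + 1 : ℝ) ^ 2 * Γ) := mul_le_mul_of_nonneg_right (by norm_num) h4
    _ = _ := by ring

/-- **sick end state** -/
theorem gain_sick' (H : EPath u fe fh F al be al' be' a b) {N : ℝ} (hN0 : 0 < N) (hN1 : N ≤ 1)
    (hab : a ≤ b) (hv : ∀ t, a ≤ t → t < b → ‖u t‖ ≤ 1) (hS : ¬ Slow u N 1 a b)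
    {h : E → ℝ} (hh : UI h) {K : Set E} (hK : Convex ℝ K)
    (hKm : MeasurableSet K) {R : ℝ} (hR : 0 ≤ R) (hKR : ∀ x ∈ K, ‖x‖ ≤ R)
    (hfh : ∀ x, fe b x + h x = Kᶜ.indicator (fun _ => (1:ℝ)) x)
    (hq0 : 0 < (stdGaussian E).real K) (hq1 : (stdGaussian E).real K ≤ 6 / 7)
    (hhid : ∫ x, h x ∂(stdGaussian E) ≤ (stdGaussian E).real K / 200) :
    N * (stdGaussian E).real K
      ≤ 10 ^ 10 * (finrank ℝ E + 1) ^ 5 * (1 + R) ^ 2
        * ∑ t ∈ Finset.Ico a b, chg F al be al' be' t := by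
  set m := finrank ℝ E with hm
  have hm0 : (0:ℝ) ≤ m := Nat.cast_nonneg m
  set q := (stdGaussian E).real K with hq
  set D : ℝ := m + 1 with hD
  have hD1 : 1 ≤ D := by linarith
  set s : ℝ := 1 / (1000 * D ^ 2 * (1 + R)) with hs
  have hden : 0 < 1000 * D ^ 2 * (1 + R) := by positivity
  have hs0 : 0 < s := by positivity
  have hD2 : 1 ≤ D ^ 2 := one_le_pow₀ hD1
  have hs1 : s ≤ 1 / 1000 := by
    rw [hs]
    apply one_div_le_one_div_of_le (by norm_num)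
    have : 1 ≤ D ^ 2 * (1 + R) := by nlinarith
    nlinarith
  have hsm : 360 * (s * (m : ℝ) ^ 2) ≤ 1 := by
    have h1 : s * (1000 * D ^ 2 * (1 + R)) = 1 := by rw [hs]; field_simp
    have h2 : (m:ℝ) ^ 2 ≤ D ^ 2 := pow_le_pow_left₀ hm0 (by linarith) 2
    have h3 : s * (m:ℝ) ^ 2 ≤ s * D ^ 2 := mul_le_mul_of_nonneg_left h2 hs0.le
    have h4 : s * D ^ 2 * (1 + R) * 1000 = 1 := by linarith
    have h5 : s * D ^ 2 ≤ s * D ^ 2 * (1 + R) := by
      have : 0 ≤ s * D ^ 2 := by positivity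
      nlinarith
    nlinarith
  have hsR : s * R ≤ 1 / 10 := by
    have h1 : s * (1000 * D ^ 2 * (1 + R)) = 1 := by rw [hs]; field_simp
    have h2 : s * R ≤ s * (D ^ 2 * (1 + R)) := by
      apply mul_le_mul_of_nonneg_left _ hs0.le
      nlinarith
    nlinarith
  have key := gain_sick_vis hN0.le hN1 hab hv hS H.fe_UI H.fh_UI H.flux H.s1 H.s2 hK hKm hKR hq0
    hq1 hh hfh hhid hs0 hs1 hsm hsR
  have hΓ0 : 0 ≤ ∑ t ∈ Finset.Ico a b, chg F al be al' be' t := H.gam_nonneg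
  set Γ := ∑ t ∈ Finset.Ico a b, chg F al be al' be' t with hΓ
  have key' : N * s ^ 2 * q / (2400 * √(m + 1)) ≤ Γ := key
  have hsq : √((m:ℝ) + 1) ≤ D := by
    rw [Real.sqrt_le_left (by linarith)]
    nlinarith
  have hsq0 : 0 < √((m:ℝ) + 1) := Real.sqrt_pos.mpr (by linarith)
  rw [div_le_iff₀ (by positivity)] at key'
  have h1 : N * s ^ 2 * q ≤ Γ * (2400 * D) :=
    key'.trans (mul_le_mul_of_nonneg_left (by linarith) hΓ0)
  have h2 : s ^ 2 * (10 ^ 6 * D ^ 4 * (1 + R) ^ 2) = 1 := by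
    rw [hs]; field_simp; norm_num
  have h3 : 0 ≤ 10 ^ 6 * D ^ 4 * (1 + R) ^ 2 := by positivity
  calc N * q = N * q * (s ^ 2 * (10 ^ 6 * D ^ 4 * (1 + R) ^ 2)) := by rw [h2, mul_one]
    _ = N * s ^ 2 * q * (10 ^ 6 * D ^ 4 * (1 + R) ^ 2) := by ring
    _ ≤ Γ * (2400 * D) * (10 ^ 6 * D ^ 4 * (1 + R) ^ 2) := mul_le_mul_of_nonneg_right h1 h3
    _ = 24 * 10 ^ 8 * (D ^ 5 * (1 + R) ^ 2 * Γ) := by ring
    _ ≤ 10 ^ 10 * (D ^ 5 * (1 + R) ^ 2 * Γ) :=
        mul_le_mul_of_nonneg_right (by norm_num) (by positivity)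
    _ = _ := by ring

/-- **the gain of a not slow interval**, healthy or sick end state -/
theorem gain (H : EPath u fe fh F al be al' be' a b) {N : ℝ} (hN0 : 0 < N) (hN1 : N ≤ 1)
    (hab : a ≤ b) (hv : ∀ t, a ≤ t → t < b → ‖u t‖ ≤ 1) (hS : ¬ Slow u N 1 a b)
    {h : E → ℝ} (hh : UI h) {K : Set E} (hK : Convex ℝ K)
    (hKm : MeasurableSet K) {R : ℝ} (hR : 0 ≤ R) (hKR : ∀ x ∈ K, ‖x‖ ≤ R)
    (hfh : ∀ x, fe b x + h x = Kᶜ.indicator (fun _ => (1:ℝ)) x)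
    (hD0 : 0 < (stdGaussian E).real Kᶜ) (hq0 : 0 < (stdGaussian E).real K)
    (hhid : ∫ x, h x ∂(stdGaussian E) ≤ 1 / 10 ^ 10 * (stdGaussian E).real Kᶜ)
    (hhid' : ∫ x, h x ∂(stdGaussian E) ≤ (stdGaussian E).real K / 200)
    (hNc : N ^ 2 * (1 - Real.log ((stdGaussian E).real Kᶜ)) * (3 * 10 ^ 8 * (finrank ℝ E + 1)) ≤ 1) :
    N * ((stdGaussian E).real Kᶜ * (stdGaussian E).real K)
      ≤ 10 ^ 13 * (finrank ℝ E + 1) ^ 5 * (1 + R) ^ 2
        * ∑ t ∈ Finset.Ico a b, chg F al be al' be' t := by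
  have hm0 : (0:ℝ) ≤ (finrank ℝ E : ℝ) := Nat.cast_nonneg _
  have hΓ0 : 0 ≤ ∑ t ∈ Finset.Ico a b, chg F al be al' be' t := H.gam_nonneg
  have hsum : (stdGaussian E).real K + (stdGaussian E).real Kᶜ = 1 := by
    rw [measureReal_compl hKm]; simp
  have hR1 : 1 ≤ (1 + R) ^ 2 := one_le_pow₀ (by linarith)
  have hD1 : (1:ℝ) ≤ (finrank ℝ E + 1 : ℝ) := by linarith
  rcases le_total ((stdGaussian E).real Kᶜ) (7 / 8) with hD | hD
  · have h1 := H.gain_healthy hN0 hN1 hab hS hh hK hKm hfh hD0 hD hhid hNc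
    have h2 : N * ((stdGaussian E).real Kᶜ * (stdGaussian E).real K)
        ≤ N * (stdGaussian E).real Kᶜ := by
      apply mul_le_mul_of_nonneg_left _ hN0.le
      exact mul_le_of_le_one_right hD0.le (by linarith)
    refine h2.trans (h1.trans (mul_le_mul_of_nonneg_right ?_ hΓ0))
    have h3 : ((finrank ℝ E : ℝ) + 1) ^ 2 ≤ (finrank ℝ E + 1) ^ 5 :=
      pow_le_pow_right₀ hD1 (by norm_num)
    have h4 : 0 ≤ ((finrank ℝ E : ℝ) + 1) ^ 5 := by positivity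
    nlinarith
  · have h1 := H.gain_sick' hN0 hN1 hab hv hS hh hK hKm hR hKR hfh hq0 (by linarith) hhid'
    have h2 : N * ((stdGaussian E).real Kᶜ * (stdGaussian E).real K)
        ≤ N * (stdGaussian E).real K := by
      apply mul_le_mul_of_nonneg_left _ hN0.le
      exact mul_le_of_le_one_left hq0.le (by linarith)
    refine h2.trans (h1.trans (mul_le_mul_of_nonneg_right ?_ hΓ0))
    have h4 : 0 ≤ ((finrank ℝ E : ℝ) + 1) ^ 5 * (1 + R) ^ 2 := by positivity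
    nlinarith

end EPath

end Vale.Agent.P262.H852
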