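import Vale.Agent.P262.H852.PathB
import Vale.Agent.P262.H852.Lbl

/-!
# P262, milestone 1, block LAB: the labelwise block lemma for a path of fields
-/

set_option linter.unusedSectionVars false
set_option linter.unusedVariables false

namespace Vale.Agent.P262.H852

open MeasureTheory ProbabilityTheory Set Filter Topology Module
open scoped RealInnerProductSpace
open Vale.Agent.P262.H847 hiding gn
open Vale.Agent.P262.H912
open Vale.Agent.P262.H941
open Vale.Agent.P262.H274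
open Vale.Agent.P262.H174 (Soft scaleBds_of_soft Soft.mass)
open EPath (chg)

variable {E : Type*} [NormedAddCommGroup E] [InnerProductSpace ℝ E] [FiniteDimensional ℝ E]
  [MeasurableSpace E] [BorelSpace E]

/-- All the data seen at one label. -/
structure LPath (u : ℕ → E) (fe fh h : ℕ → E → ℝ) (K : ℕ → Set E) (F al be al' be' G Δ Q : ℕ → ℝ)
    (A η R : ℝ) (a b : ℕ) : Prop extends EPath u fe fh F al be al' be' a b where
  h_UI : ∀ t, UI (h t)
  conv : ∀ t, a ≤ t → t ≤ b → Convex ℝ (K t)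
  meas : ∀ t, a ≤ t → t ≤ b → MeasurableSet (K t)
  ball : ∀ t, a ≤ t → t ≤ b → ∀ x ∈ K t, ‖x‖ ≤ R
  split : ∀ t, a ≤ t → t ≤ b → ∀ x, fe t x + h t x = (K t)ᶜ.indicator (fun _ => (1:ℝ)) x
  hidA : ∀ t, a ≤ t → t ≤ b → ∫ x, h t x ∂(stdGaussian E) ≤ η * A
  hidq : ∀ t, a ≤ t → t ≤ b → ∫ x, h t x ∂(stdGaussian E) ≤ η * (stdGaussian E).real (K t)
  A0 : 0 ≤ A
  A1 : A ≤ 1
  η0 : 0 ≤ η
  η1 : η ≤ 1 / 10 ^ 11
  R0 : 0 ≤ R
  sum : ∀ t, a ≤ t → t < b → chg F al be al' be' t ≤ G t + Δ t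
  G0 : ∀ t, a ≤ t → t < b → 0 ≤ G t
  Δ0 : ∀ t, a ≤ t → t < b → 0 ≤ Δ t
  Q0 : ∀ t, a ≤ t → t < b → 0 ≤ Q t
  price : ∀ t, a ≤ t → t < b →
    A * max ((stdGaussian E).real (K t)) ((stdGaussian E).real (K (t + 1))) ≤ Q t ∨
    A * Δ t ≤ Q t * (min (1 - (stdGaussian E).real (K t)) (1 - (stdGaussian E).real (K (t + 1)))
      + Δ t)

namespace LPath

variable {u : ℕ → E} {fe fh h : ℕ → E → ℝ} {K : ℕ → Set E} {F al be al' be' G Δ Q : ℕ → ℝ}
  {A η R : ℝ} {a b : ℕ}

lemma mass_le (H : LPath u fe fh h K F al be al' be' G Δ Q A η R a b) {t : ℕ} (h1 : a ≤ t)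
    (h2 : t < b) : |∫ x, fe (t + 1) x ∂(stdGaussian E) - ∫ x, fe t x ∂(stdGaussian E)|
      ≤ G t + Δ t := by
  have e1 := (H.s1 t h1 h2).mass (H.fe_UI t) (H.fh_UI t)
  have e2 := (H.s2 t h1 h2).mass (H.fh_UI t) (H.fe_UI (t + 1))
  have e3 := (H.flux t h1 h2).nonneg
  have e4 := H.be0 t h1 h2
  have e5 := H.be0' t h1 h2
  have e6 := H.sum t h1 h2
  unfold chg at e6
  rw [abs_le] at e1 e2 ⊢
  constructor <;> linarith

/-- the real sequences of one label -/
theorem lab (H : LPath u fe fh h K F al be al' be' G Δ Q A η R a b) :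
    Lab A η (fun t => (stdGaussian E).real (K t)) (fun t => ∫ x, fe t x ∂(stdGaussian E))
      (fun t => ∫ x, h t x ∂(stdGaussian E)) G Δ Q a b where
  A0 := H.A0
  A1 := H.A1
  η0 := H.η0
  η1 := H.η1.trans (by norm_num)
  q0 := fun t _ _ => measureReal_nonneg
  q1 := fun t _ _ => measureReal_le_one
  h0 := fun t _ _ => integral_nonneg fun x => (H.h_UI t).nonneg x
  bal := by
    intro t h1 h2
    have hKm := H.meas t h1 h2
    rw [← integral_add ((H.fe_UI t).integrable _) ((H.h_UI t).integrable _)]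
    have e1 : (fun x => fe t x + h t x) = (K t)ᶜ.indicator (fun _ => (1:ℝ)) :=
      funext (H.split t h1 h2)
    rw [e1, integral_indicator_const _ hKm.compl, measureReal_compl hKm]
    simp
  hA := H.hidA
  hq := H.hidq
  G0 := H.G0
  Δ0 := H.Δ0
  Q0 := H.Q0
  var := fun t h1 h2 => H.mass_le h1 h2
  price := H.price

/-- **complete block**: `u` is not slow on `[a, b]`, the label reaches its cap. -/
theorem complete (H : LPath u fe fh h K F al be al' be' G Δ Q A η R a b) {N : ℝ} (hN0 : 0 < N)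
    (hN1 : N ≤ 1) (hab : a ≤ b) (hv : ∀ t, a ≤ t → t < b → ‖u t‖ ≤ 1) (hS : ¬ Slow u N 1 a b)
    (hNc : N ^ 2 * (1 - Real.log (9 / 10 * A)) * (3 * 10 ^ 8 * (finrank ℝ E + 1)) ≤ 1)
    {σ : ℕ} (hσa : a ≤ σ) (hσb : σ ≤ b) (hσ : A ≤ 1 - (stdGaussian E).real (K σ))
    {τ : ℕ} (hτa : a ≤ τ) (hτb : τ ≤ b) :
    N * (A * (stdGaussian E).real (K τ))
      ≤ 10 ^ 15 * (finrank ℝ E + 1) ^ 5 * (1 + R) ^ 2
        * (∑ t ∈ Finset.Ico a b, G t + ∑ t ∈ Finset.Ico a b, Q t) := by
  have hm0 : (0:ℝ) ≤ (finrank ℝ E : ℝ) := Nat.cast_nonneg _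
  have hG := H.lab.sumG_nonneg
  have hQ := H.lab.sumQ_nonneg
  have hR0 := H.R0
  rcases H.A0.eq_or_lt with hA | hA
  · rw [← hA, zero_mul, mul_zero]; positivity
  set C : ℝ := 10 ^ 13 * (finrank ℝ E + 1) ^ 5 * (1 + R) ^ 2 with hC
  have hC1 : 1 ≤ C := by
    have h1 : (1:ℝ) ≤ (finrank ℝ E + 1) ^ 5 := one_le_pow₀ (by linarith)
    have h2 : 1 ≤ (1 + R) ^ 2 := one_le_pow₀ (by linarith)
    have h3 : 1 ≤ (finrank ℝ E + 1 : ℝ) ^ 5 * (1 + R) ^ 2 := by nlinarith
    calc (1:ℝ) ≤ 10 ^ 13 * 1 := by norm_num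
      _ ≤ 10 ^ 13 * ((finrank ℝ E + 1 : ℝ) ^ 5 * (1 + R) ^ 2) :=
          mul_le_mul_of_nonneg_left h3 (by norm_num)
      _ = C := by rw [hC]; ring
  have hC0 : 0 < C := by linarith
  have hκ1 : N / C ≤ 1 := by rw [div_le_one hC0]; linarith
  have key := H.lab.complete (κ := N / C) (by positivity) hκ1 hab hσa hσb hσ (by
    intro hD _ hqb
    have hDb := hD b hab le_rfl
    have hKm := H.meas b hab le_rfl
    have hcompl : (stdGaussian E).real (K b)ᶜ = 1 - (stdGaussian E).real (K b) := by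
      rw [measureReal_compl hKm]; simp
    have hD0 : 0 < (stdGaussian E).real (K b)ᶜ := by
      rw [hcompl]
      have : 0 < 9 / 10 * A := by positivity
      linarith
    have hη := H.η1
    have hη0 := H.η0
    have h1 := H.toEPath.gain hN0 hN1 hab hv hS (H.h_UI b) (H.conv b hab le_rfl) hKm H.R0
      (H.ball b hab le_rfl) (H.split b hab le_rfl) hD0 hqb (by
        have e1 := H.hidA b hab le_rfl
        have e2 : A ≤ 10 / 9 * (stdGaussian E).real (K b)ᶜ := by rw [hcompl]; linarith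
        calc _ ≤ η * A := e1
          _ ≤ 1 / 10 ^ 11 * A := mul_le_mul_of_nonneg_right hη hA.le
          _ ≤ 1 / 10 ^ 11 * (10 / 9 * (stdGaussian E).real (K b)ᶜ) :=
              mul_le_mul_of_nonneg_left e2 (by norm_num)
          _ ≤ 1 / 10 ^ 10 * (stdGaussian E).real (K b)ᶜ := by
              rw [← mul_assoc]
              exact mul_le_mul_of_nonneg_right (by norm_num) hD0.le) (by
        have e1 := H.hidq b hab le_rfl
        calc _ ≤ η * (stdGaussian E).real (K b) := e1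
          _ ≤ 1 / 10 ^ 11 * (stdGaussian E).real (K b) :=
              mul_le_mul_of_nonneg_right hη hqb.le
          _ ≤ 1 / 200 * (stdGaussian E).real (K b) :=
              mul_le_mul_of_nonneg_right (by norm_num) hqb.le
          _ = (stdGaussian E).real (K b) / 200 := by ring) (by
        refine le_trans ?_ hNc
        apply mul_le_mul_of_nonneg_right _ (by positivity)
        apply mul_le_mul_of_nonneg_left _ (by positivity)
        have e1 : Real.log (9 / 10 * A) ≤ Real.log ((stdGaussian E).real (K b)ᶜ) :=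
          Real.log_le_log (by positivity) (by rw [hcompl]; exact hDb)
        linarith)
    rw [hcompl] at h1
    rw [div_mul_eq_mul_div, div_le_iff₀ hC0]
    refine h1.trans ?_
    rw [mul_comm (∑ t ∈ Finset.Ico a b, (G t + Δ t)) C]
    apply mul_le_mul_of_nonneg_left _ hC0.le
    refine Finset.sum_le_sum fun t ht => ?_
    rw [Finset.mem_Ico] at ht
    exact H.sum t ht.1 ht.2) hτa hτb
  rw [div_div, div_mul_eq_mul_div, div_le_iff₀ (by positivity)] at key
  refine key.trans (le_of_eq ?_)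
  rw [hC]; ring

/-- **any block** -/
theorem incomplete (H : LPath u fe fh h K F al be al' be' G Δ Q A η R a b) {o : ℕ} (hoa : a ≤ o)
    (hob : o ≤ b) {τ : ℕ} (hτa : a ≤ τ) (hτb : τ ≤ b) :
    A * (stdGaussian E).real (K τ) ≤ 2 * (A * (stdGaussian E).real (K o))
      + 20 * (∑ t ∈ Finset.Ico a b, G t + ∑ t ∈ Finset.Ico a b, Q t) :=
  H.lab.incomplete hoa hob hτa hτb

end LPath

end Vale.Agent.P262.H852
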