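import Vale.Agent.P262.H174.Soft4

/-!
# P262, milestone 1: support bound for softly moving fields, third moment form

As `H174.supp_bound'`, but the cubic error is the third moment
`∫∫ e (c y + s g) ‖g‖³` of the last field.  No logarithm of its mass appears, so the bound can be
used for fields of arbitrarily small mass.
-/

set_option linter.unusedSectionVars false
set_option linter.unusedVariables false

namespace Vale.Agent.P262.H852

open MeasureTheory ProbabilityTheory Set Filter Topology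
open scoped RealInnerProductSpace ENNReal
open Vale.Agent.P262.H847 Vale.Agent.P262.H912 Vale.Agent.P262.H941 Vale.Agent.P262.H174

variable {E : Type*} [NormedAddCommGroup E] [InnerProductSpace ℝ E] [FiniteDimensional ℝ E]
  [MeasurableSpace E] [BorelSpace E]

/-- third moment of the fibre coordinate -/
noncomputable def M3 (e : E → ℝ) (c s : ℝ) : ℝ :=
  ∫ y, ∫ g, e (c • y + s • g) * ‖g‖ ^ 3 ∂(stdGaussian E) ∂(stdGaussian E)

lemma integrable_norm_pow3 : Integrable (fun g : E => ‖g‖ ^ 3) (stdGaussian E) := by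
  refine ((integrable_exp_sq (E := E) (θ := 1 / 2) (by norm_num)).const_mul 64).mono'
    (by fun_prop) (Eventually.of_forall fun g => ?_)
  have hg := norm_nonneg g
  rw [Real.norm_eq_abs, abs_of_nonneg (by positivity)]
  have h1 : 1 + ‖g‖ ^ 2 / 8 ≤ Real.exp (‖g‖ ^ 2 / 8) := by
    have := Real.add_one_le_exp (‖g‖ ^ 2 / 8); linarith
  have h2 : (1 + ‖g‖ ^ 2 / 8) ^ 2 ≤ Real.exp (‖g‖ ^ 2 / 8) ^ 2 :=
    pow_le_pow_left₀ (by positivity) h1 2
  have h3 : Real.exp (‖g‖ ^ 2 / 8) ^ 2 = Real.exp (1 / 2 * ‖g‖ ^ 2 / 2) := by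
    rw [← Real.exp_nat_mul]; congr 1; push_cast; ring
  rw [h3] at h2
  nlinarith [sq_nonneg (‖g‖ ^ 2 - 4 * ‖g‖), sq_nonneg (‖g‖ - 1), pow_nonneg hg 3, pow_nonneg hg 4]

/-- the linearisation of the mode, moment form -/
theorem supp_mode3 {e : ℕ → E → ℝ} (he : ∀ t, UI (e t)) {v : ℕ → E} {c s : ℝ}
    (hcs : c ^ 2 + s ^ 2 = 1) (hs : 0 < s) {κ : ℕ → E → ℝ} (hκm : ∀ t, Measurable (κ t))
    (n : ℕ) {N : ℝ}
    (hadm : ∀ y, Adm v n N (fun t => κ t y))
    (hpos : ∀ y, 0 ≤ ⟪∑ r ∈ Finset.range n, κ r y • v r, mom (e n) s (c • y)⟫)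
    {ε : ℝ} (hε : 0 < ε) (hε1 : ε ≤ 1) {BB : ℝ}
    (hpath : |mode (e n) c s (fun y => ε • ∑ r ∈ Finset.range n, κ r y • v r)| ≤ BB) :
    ε * ∫ y, ⟪∑ r ∈ Finset.range n, κ r y • v r, mom (e n) s (c • y)⟫ ∂(stdGaussian E)
      ≤ BB + Real.exp (1 / 2) * (ε ^ 3 / 6 * (N ^ 3 * M3 (e n) c s)) := by
  set w : E → E := fun y => ∑ r ∈ Finset.range n, κ r y • v r with hw
  have hN : 0 ≤ N := (norm_nonneg _).trans (hadm 0).final_le
  have hwm : Measurable w := Finset.measurable_sum _ fun r _ => (hκm r).smul_const (v r)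
  have hw1 : ∀ y, ‖w y‖ ≤ 1 := fun y => (hadm y).partial_le n le_rfl
  have hwN : ∀ y, ‖w y‖ ≤ N := fun y => (hadm y).final_le
  -- the mode from below
  have hεw : ∀ y, ‖ε • w y‖ ≤ 1 := fun y => by
    rw [norm_smul, Real.norm_eq_abs, abs_of_pos hε]
    exact mul_le_one₀ hε1 (norm_nonneg _) (hw1 y)
  have hmi := integrable_mode (he n) (w := fun y => ε • w y) (hwm.const_smul ε) hεw c s
  have hfy : ∀ y, UI (fun g => e n (c • y + s • g)) := fun y => UI.comp (he n) (by fun_prop)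
  have hi3' : Integrable (fun p : E × E => e n (c • p.1 + s • p.2) * ‖p.2‖ ^ 3)
      ((stdGaussian E).prod (stdGaussian E)) := by
    refine (integrable_norm_pow3.comp_snd _).mono' ?_ (Eventually.of_forall fun p => ?_)
    · exact ((UI.comp (he n) (by fun_prop) : UI (fun p : E × E => e n (c • p.1 + s • p.2))).meas.mul
        (by fun_prop)).aestronglyMeasurable
    · rw [norm_mul, Real.norm_eq_abs, abs_of_nonneg ((he n).nonneg _), Real.norm_eq_abs,
        abs_of_nonneg (by positivity)]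
      exact mul_le_of_le_one_left (by positivity) ((he n).le_one _)
  have hi3y : Integrable (fun y => ∫ g, e n (c • y + s • g) * ‖g‖ ^ 3 ∂(stdGaussian E))
      (stdGaussian E) := hi3'.integral_prod_left
  set K3 : ℝ := Real.exp (1 / 2) * (ε ^ 3 / 6) * N ^ 3 with hK3
  have hK30 : 0 ≤ K3 := by positivity
  have hpt : ∀ y, ε * ⟪w y, mom (e n) s (c • y)⟫
      - K3 * ∫ g, e n (c • y + s • g) * ‖g‖ ^ 3 ∂(stdGaussian E)
      ≤ ∫ g, e n (c • y + s • g) * (Real.sin ⟪g, ε • w y⟫ * Real.exp (‖ε • w y‖ ^ 2 / 2))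
        ∂(stdGaussian E) := by
    intro y
    set Z := Real.exp (‖ε • w y‖ ^ 2 / 2) with hZ
    have hZ1 : 1 ≤ Z := Real.one_le_exp (by positivity)
    have hZ2 : Z ≤ Real.exp (1 / 2) := by
      apply Real.exp_le_exp.mpr
      have := hεw y
      have := norm_nonneg (ε • w y)
      nlinarith
    have hin : ⟪w y, mom (e n) s (c • y)⟫ = ∫ g, e n (c • y + s • g) * ⟪g, w y⟫ ∂(stdGaussian E) := by
      have h1 := (innerSL ℝ (w y)).integral_comp_comm (UI.integrable_smul (hfy y))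
      simp only [innerSL_apply_apply] at h1
      rw [mom, ← h1]
      congr 1; funext g
      rw [real_inner_smul_right, real_inner_comm]
    have hi1 : Integrable (fun g => e n (c • y + s • g) * ⟪g, w y⟫) (stdGaussian E) := by
      refine (integrable_inner (w y)).norm.mono' ((hfy y).meas.mul (by fun_prop)).aestronglyMeasurable
        (Eventually.of_forall fun g => ?_)
      rw [norm_mul, Real.norm_eq_abs, abs_of_nonneg ((hfy y).nonneg g), real_inner_comm]
      exact mul_le_of_le_one_left (norm_nonneg _) ((hfy y).le_one g)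
    have hi3 : Integrable (fun g => e n (c • y + s • g) * |⟪g, w y⟫| ^ 3) (stdGaussian E) := by
      refine (integrable_cube (w y)).mono' ((hfy y).meas.mul (by fun_prop)).aestronglyMeasurable
        (Eventually.of_forall fun g => ?_)
      rw [Real.norm_eq_abs, abs_mul, abs_of_nonneg ((hfy y).nonneg g), abs_of_nonneg (by positivity)]
      exact mul_le_of_le_one_left (by positivity) ((hfy y).le_one g)
    have his : Integrable (fun g => e n (c • y + s • g) * Real.sin ⟪g, ε • w y⟫)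
        (stdGaussian E) := by
      refine Integrable.of_bound ((hfy y).meas.mul (by fun_prop)).aestronglyMeasurable 1
        (Eventually.of_forall fun g => ?_)
      rw [norm_mul, Real.norm_eq_abs, abs_of_nonneg ((hfy y).nonneg g), Real.norm_eq_abs]
      exact mul_le_one₀ ((hfy y).le_one g) (abs_nonneg _) (Real.abs_sin_le_one _)
    have h1 : ε * ∫ g, e n (c • y + s • g) * ⟪g, w y⟫ ∂(stdGaussian E)
        - ε ^ 3 / 6 * ∫ g, e n (c • y + s • g) * |⟪g, w y⟫| ^ 3 ∂(stdGaussian E)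
        ≤ ∫ g, e n (c • y + s • g) * Real.sin ⟪g, ε • w y⟫ ∂(stdGaussian E) := by
      rw [← integral_const_mul, ← integral_const_mul, ← integral_sub (hi1.const_mul ε)
        (hi3.const_mul _)]
      apply integral_mono ((hi1.const_mul ε).sub (hi3.const_mul _)) his
      intro g
      show ε * (e n (c • y + s • g) * ⟪g, w y⟫)
          - ε ^ 3 / 6 * (e n (c • y + s • g) * |⟪g, w y⟫| ^ 3)
          ≤ e n (c • y + s • g) * Real.sin ⟪g, ε • w y⟫
      rw [real_inner_smul_right]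
      have h2 := (hfy y).nonneg g
      set u := ε * ⟪g, w y⟫ with hu
      have h3 : u - |u| ^ 3 / 6 ≤ Real.sin u := by
        rcases le_total 0 u with h | h
        · rw [abs_of_nonneg h]
          have := Real.sin_ge_sub_cube h
          linarith
        · rw [abs_of_nonpos h]
          have := Real.sin_le (neg_nonneg.mpr h)
          rw [Real.sin_neg] at this
          have h4 : 0 ≤ (-u) ^ 3 := by
            have : 0 ≤ -u := by linarith
            positivity
          linarith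
      have h5 : |u| ^ 3 = ε ^ 3 * |⟪g, w y⟫| ^ 3 := by
        rw [hu, abs_mul, abs_of_pos hε, mul_pow]
      rw [h5] at h3
      have h6 := mul_le_mul_of_nonneg_left h3 h2
      have h7 : ε * (e n (c • y + s • g) * ⟪g, w y⟫)
          - ε ^ 3 / 6 * (e n (c • y + s • g) * |⟪g, w y⟫| ^ 3)
          = e n (c • y + s • g) * (u - ε ^ 3 * |⟪g, w y⟫| ^ 3 / 6) := by rw [hu]; ring
      rw [h7]; exact h6
    have h8 : ∫ g, e n (c • y + s • g) * (Real.sin ⟪g, ε • w y⟫ * Z) ∂(stdGaussian E)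
        = Z * ∫ g, e n (c • y + s • g) * Real.sin ⟪g, ε • w y⟫ ∂(stdGaussian E) := by
      rw [← integral_const_mul]
      congr 1; funext g; ring
    rw [h8]
    have hi4 : Integrable (fun g => e n (c • y + s • g) * ‖g‖ ^ 3) (stdGaussian E) := by
      refine integrable_norm_pow3.mono' ((hfy y).meas.mul (by fun_prop)).aestronglyMeasurable
        (Eventually.of_forall fun g => ?_)
      rw [norm_mul, Real.norm_eq_abs, abs_of_nonneg ((hfy y).nonneg g), Real.norm_eq_abs,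
        abs_of_nonneg (by positivity)]
      exact mul_le_of_le_one_left (by positivity) ((hfy y).le_one g)
    have h9 : ∫ g, e n (c • y + s • g) * |⟪g, w y⟫| ^ 3 ∂(stdGaussian E)
        ≤ N ^ 3 * ∫ g, e n (c • y + s • g) * ‖g‖ ^ 3 ∂(stdGaussian E) := by
      rw [← integral_const_mul]
      refine integral_mono hi3 (hi4.const_mul _) fun g => ?_
      show e n (c • y + s • g) * |⟪g, w y⟫| ^ 3 ≤ N ^ 3 * (e n (c • y + s • g) * ‖g‖ ^ 3)
      have h2 := (hfy y).nonneg g
      have h3 : |⟪g, w y⟫| ≤ ‖g‖ * N := (abs_real_inner_le_norm g (w y)).trans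
        (mul_le_mul_of_nonneg_left (hwN y) (norm_nonneg _))
      have h4 : |⟪g, w y⟫| ^ 3 ≤ (‖g‖ * N) ^ 3 := pow_le_pow_left₀ (abs_nonneg _) h3 3
      have h5 := mul_le_mul_of_nonneg_left h4 h2
      calc e n (c • y + s • g) * |⟪g, w y⟫| ^ 3 ≤ e n (c • y + s • g) * (‖g‖ * N) ^ 3 := h5
        _ = _ := by ring
    have hp := hpos y
    rw [← hin] at h1
    have hp' : 0 ≤ ε * ⟪w y, mom (e n) s (c • y)⟫ := mul_nonneg hε.le hp
    set S := ∫ g, e n (c • y + s • g) * Real.sin ⟪g, ε • w y⟫ ∂(stdGaussian E) with hS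
    set Q := ∫ g, e n (c • y + s • g) * |⟪g, w y⟫| ^ 3 ∂(stdGaussian E) with hQ
    have hQ0 : 0 ≤ Q := integral_nonneg fun g => mul_nonneg ((hfy y).nonneg g) (by positivity)
    set a := ε * ⟪w y, mom (e n) s (c • y)⟫ with ha
    -- Z S ≥ Z (a - ε³/6 Q) ≥ a - √e ε³/6 Q
    have h10 : Z * (a - ε ^ 3 / 6 * Q) ≤ Z * S := mul_le_mul_of_nonneg_left h1 (by linarith)
    have h11 : a - Real.exp (1 / 2) * (ε ^ 3 / 6 * Q) ≤ Z * (a - ε ^ 3 / 6 * Q) := by
      have h12 : 0 ≤ ε ^ 3 / 6 * Q := by positivity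
      nlinarith [mul_le_mul_of_nonneg_right hZ2 h12, mul_nonneg (sub_nonneg.mpr hZ1) hp']
    have h13 : Real.exp (1 / 2) * (ε ^ 3 / 6 * Q)
        ≤ K3 * ∫ g, e n (c • y + s • g) * ‖g‖ ^ 3 ∂(stdGaussian E) := by
      have h14 := mul_le_mul_of_nonneg_left h9 (show 0 ≤ Real.exp (1 / 2) * (ε ^ 3 / 6) by positivity)
      rw [hK3]
      calc Real.exp (1 / 2) * (ε ^ 3 / 6 * Q) = Real.exp (1 / 2) * (ε ^ 3 / 6) * Q := by ring
        _ ≤ _ := h14
        _ = _ := by ring
    linarith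
  -- integrate
  have hmode : ∫ y, ∫ g, e n (c • y + s • g)
        * (Real.sin ⟪g, ε • w y⟫ * Real.exp (‖ε • w y‖ ^ 2 / 2)) ∂(stdGaussian E) ∂(stdGaussian E)
      = mode (e n) c s (fun y => ε • w y) := by
    unfold mode
    rw [integral_prod _ hmi]
  have hiL : Integrable (fun y => ⟪w y, mom (e n) s (c • y)⟫) (stdGaussian E) := by
    refine Integrable.of_bound (hwm.inner ((measurable_mom (he n) s).comp
      (by fun_prop))).aestronglyMeasurable 1 (Eventually.of_forall fun y => ?_)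
    refine (norm_inner_le_norm _ _).trans ?_
    exact mul_le_one₀ (hw1 y) (norm_nonneg _) ((norm_mom_le (he n) s _).trans (Ip_le_one _))
  have hint : ∫ y, (ε * ⟪w y, mom (e n) s (c • y)⟫
      - K3 * ∫ g, e n (c • y + s • g) * ‖g‖ ^ 3 ∂(stdGaussian E)) ∂(stdGaussian E)
      ≤ mode (e n) c s (fun y => ε • w y) := by
    rw [← hmode]
    exact integral_mono ((hiL.const_mul ε).sub (hi3y.const_mul K3)) hmi.integral_prod_left hpt
  rw [integral_sub (hiL.const_mul ε) (hi3y.const_mul K3),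
    integral_const_mul, integral_const_mul] at hint
  have h20 := (le_abs_self _).trans hpath
  have h21 : K3 * ∫ y, ∫ g, e n (c • y + s • g) * ‖g‖ ^ 3 ∂(stdGaussian E) ∂(stdGaussian E)
      = Real.exp (1 / 2) * (ε ^ 3 / 6 * (N ^ 3 * M3 (e n) c s)) := by rw [hK3, M3]; ring
  linarith

/-- **Support function bound**, measurable selection, moment form. -/
theorem supp_sel3 {e : ℕ → E → ℝ} (he : ∀ t, UI (e t)) {v : ℕ → E} {F : ℕ → ℝ} {c s : ℝ}
    (hcs : c ^ 2 + s ^ 2 = 1) (hs : 0 < s) {κ : ℕ → E → ℝ} (hκm : ∀ t, Measurable (κ t))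
    (n : ℕ) (hF : ∀ t < n, FluxLe (e t) (v t) (F t))
    {a b : ℕ → ℝ} (hab : ∀ t < n, Soft (e t) (e (t + 1)) (a t) (b t)) {N : ℝ}
    (hadm : ∀ y, Adm v n N (fun t => κ t y))
    (hpos : ∀ y, 0 ≤ ⟪∑ r ∈ Finset.range n, κ r y • v r, mom (e n) s (c • y)⟫)
    {ε : ℝ} (hε : 0 < ε) (hε1 : ε ≤ 1) :
    ε * ∫ y, ⟪∑ r ∈ Finset.range n, κ r y • v r, mom (e n) s (c • y)⟫ ∂(stdGaussian E)
      ≤ Real.exp (1 / 2) * ∑ t ∈ Finset.range n, (s * F t + (a t + 3 / s * b t))
        + Real.exp (1 / 2) * (ε ^ 3 / 6 * (N ^ 3 * M3 (e n) c s)) := by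
  refine supp_mode3 he hcs hs hκm n hadm hpos hε hε1 ?_
  have hpath := path_bound' he hcs hs (v := v) (F := F) (κ := fun t y => ε * κ t y)
    (fun t => (hκm t).const_mul ε) (fun t y => by
      rw [abs_mul, abs_of_pos hε]
      exact mul_le_one₀ hε1 (abs_nonneg _) ((hadm y).abs_le t)) n hF hab
    (fun t ht y => by
      have h1 : ∑ r ∈ Finset.range t, (ε * κ r y) • v r
          = ε • ∑ r ∈ Finset.range t, κ r y • v r := by
        rw [Finset.smul_sum]
        exact Finset.sum_congr rfl fun r _ => by rw [mul_smul]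
      rw [h1, norm_smul, Real.norm_eq_abs, abs_of_pos hε]
      exact mul_le_one₀ hε1 (norm_nonneg _) ((hadm y).partial_le t ht))
  have hwe : (fun y => ∑ r ∈ Finset.range n, (ε * κ r y) • v r)
      = fun y => ε • ∑ r ∈ Finset.range n, κ r y • v r := by
    funext y
    rw [Finset.smul_sum]
    exact Finset.sum_congr rfl fun r _ => by rw [mul_smul]
  rwa [hwe] at hpath

/-- **Support function bound** for softly moving fields, moment form. -/
theorem supp_bound3 {e : ℕ → E → ℝ} (he : ∀ t, UI (e t)) {v : ℕ → E} {F : ℕ → ℝ} {c s : ℝ}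
    (hcs : c ^ 2 + s ^ 2 = 1) (hs : 0 < s) (hs1 : s ≤ 1)
    (n : ℕ) (hF : ∀ t < n, FluxLe (e t) (v t) (F t))
    {a b : ℕ → ℝ} (hab : ∀ t < n, Soft (e t) (e (t + 1)) (a t) (b t)) {N : ℝ} (hN : 0 ≤ N)
    {P : E →L[ℝ] E} {lam : ℝ}
    (hP : ∀ m : E, ∀ δ : ℝ, 0 < δ → ∃ κ, Adm v n N κ ∧
      lam * ‖P m‖ ≤ ⟪∑ r ∈ Finset.range n, κ r • v r, m⟫ + δ)
    {ε : ℝ} (hε : 0 < ε) (hε1 : ε ≤ 1) :
    ε * (lam * ∫ y, ‖P (mom (e n) s (c • y))‖ ∂(stdGaussian E))
      ≤ Real.exp (1 / 2) * ∑ t ∈ Finset.range n, (F t + (a t + 3 / s * b t))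
        + Real.exp (1 / 2) * (ε ^ 3 / 6 * (N ^ 3 * M3 (e n) c s)) := by
  apply le_of_forall_pos_le_add
  intro δ hδ
  set δ' := δ / 2 with hδ'
  have hδ'0 : 0 < δ' := by positivity
  set 𝒲 : Set E := {w | ∃ κ, Adm v n N κ ∧ w = ∑ r ∈ Finset.range n, κ r • v r} with h𝒲
  have htb : TotallyBounded 𝒲 := by
    refine (isCompact_closedBall (0:E) 1).totallyBounded.subset ?_
    rintro w ⟨κ, hκ, rfl⟩
    rw [mem_closedBall_zero_iff]
    exact hκ.partial_le n le_rfl
  obtain ⟨t, ht, htf, htc⟩ := Metric.finite_approx_of_totallyBounded htb δ' hδ'0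
  -- coefficients of the net
  have hch : ∀ w ∈ t, ∃ κ, Adm v n N κ ∧ w = ∑ r ∈ Finset.range n, κ r • v r := fun w hw => ht hw
  choose! cf hcf using hch
  set L : List (ℕ → ℝ) := (htf.toFinset.toList).map cf with hL
  have hLadm : ∀ κ ∈ L, Adm v n N κ := by
    intro κ hκ
    rw [hL, List.mem_map] at hκ
    obtain ⟨w, hw, rfl⟩ := hκ
    rw [Finset.mem_toList, Set.Finite.mem_toFinset] at hw
    exact (hcf w hw).1
  set M : E → E := fun y => mom (e n) s (c • y) with hM
  have hMm : Measurable M := (measurable_mom (he n) s).comp (by fun_prop)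
  obtain ⟨κ, h1, h2, h3, h4⟩ := exists_selection hMm L hLadm hN
  have hsel := supp_sel3 he hcs hs h1 n hF hab h2 h3 hε hε1
  -- comparison
  have hcmp : ∀ y, lam * ‖P (M y)‖
      ≤ ⟪∑ r ∈ Finset.range n, κ r y • v r, M y⟫ + 2 * δ' := by
    intro y
    obtain ⟨κ', hκ', hle⟩ := hP (M y) δ' hδ'0
    have hw' : (∑ r ∈ Finset.range n, κ' r • v r) ∈ 𝒲 := ⟨κ', hκ', rfl⟩
    obtain ⟨w, hw⟩ := mem_iUnion.mp (htc hw')
    obtain ⟨hwt, hwd⟩ := mem_iUnion.mp hw
    have h5 := h4 (cf w) (by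
      rw [hL, List.mem_map]
      exact ⟨w, by rw [Finset.mem_toList, Set.Finite.mem_toFinset]; exact hwt, rfl⟩) y
    rw [← (hcf w hwt).2] at h5
    have h6 : ⟪∑ r ∈ Finset.range n, κ' r • v r, M y⟫ ≤ ⟪w, M y⟫ + δ' := by
      have h7 : ⟪∑ r ∈ Finset.range n, κ' r • v r, M y⟫ - ⟪w, M y⟫ ≤ δ' := by
        rw [← inner_sub_left]
        refine (real_inner_le_norm _ _).trans ?_
        have h8 : ‖∑ r ∈ Finset.range n, κ' r • v r - w‖ ≤ δ' := by
          rw [← dist_eq_norm]; exact (Metric.mem_ball.mp hwd).le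
        have h9 := norm_mom_le_one (he n) s (c • y)
        calc _ ≤ δ' * 1 := mul_le_mul h8 h9 (norm_nonneg _) hδ'0.le
          _ = δ' := mul_one _
      linarith
    linarith
  have hwm : Measurable (fun y => ∑ r ∈ Finset.range n, κ r y • v r) :=
    Finset.measurable_sum _ fun r _ => (h1 r).smul_const (v r)
  have hi1 : Integrable (fun y => ⟪∑ r ∈ Finset.range n, κ r y • v r, M y⟫) (stdGaussian E) := by
    refine Integrable.of_bound (hwm.inner hMm).aestronglyMeasurable 1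
      (Eventually.of_forall fun y => ?_)
    refine (norm_inner_le_norm _ _).trans ?_
    exact mul_le_one₀ ((h2 y).partial_le n le_rfl) (norm_nonneg _) (norm_mom_le_one (he n) s _)
  have hi2 := (integrable_norm_mom (he n) P c s).const_mul lam
  have hint : lam * ∫ y, ‖P (M y)‖ ∂(stdGaussian E)
      ≤ ∫ y, ⟪∑ r ∈ Finset.range n, κ r y • v r, M y⟫ ∂(stdGaussian E) + 2 * δ' := by
    rw [← integral_const_mul]
    have : ∫ y, (⟪∑ r ∈ Finset.range n, κ r y • v r, M y⟫ + 2 * δ') ∂(stdGaussian E)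
        = ∫ y, ⟪∑ r ∈ Finset.range n, κ r y • v r, M y⟫ ∂(stdGaussian E) + 2 * δ' := by
      rw [integral_add hi1 (integrable_const _)]; simp
    rw [← this]
    exact integral_mono hi2 (hi1.add (integrable_const _)) hcmp
  have hFs : ∑ t ∈ Finset.range n, (s * F t + (a t + 3 / s * b t))
      ≤ ∑ t ∈ Finset.range n, (F t + (a t + 3 / s * b t)) := by
    apply Finset.sum_le_sum
    intro t ht
    have h0 := (hF t (Finset.mem_range.mp ht)).nonneg
    nlinarith
  have hexp := Real.exp_pos (1 / 2 : ℝ)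
  have h10 := mul_le_mul_of_nonneg_left hint hε.le
  have h11 := mul_le_mul_of_nonneg_left hFs hexp.le
  have h12 : ε * (2 * δ') ≤ δ := by rw [hδ']; nlinarith
  have h13 : ε * (∫ y, ⟪∑ r ∈ Finset.range n, κ r y • v r, M y⟫ ∂(stdGaussian E) + 2 * δ')
      = ε * ∫ y, ⟪∑ r ∈ Finset.range n, κ r y • v r, M y⟫ ∂(stdGaussian E) + ε * (2 * δ') := by
    ring
  rw [h13] at h10
  linarith

end Vale.Agent.P262.H852
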